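import Vale.Agent.P297.H288.KChord
import Vale.Agent.P297.H721.PtMore
import Vale.Agent.P297.H600.Stab

/-!
The generic points of the surface from the chords of the cubic surfaces.
-/

set_option linter.unusedSectionVars false
set_option linter.style.haveILetI false
set_option linter.unusedSimpArgs false

namespace Vale.Agent.P297.H288

open Polynomial IntermediateField
open Vale.Agent.P297 Vale.Agent.P297.Gen Vale.Agent.P297.H777 Vale.Agent.P297.H72
open Vale.Agent.P297.H729 Vale.Agent.P297.H839 Vale.Agent.P297.H600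

section field

variable {N : Type} [Field N] [Algebra ℂ N]

theorem exists_om (N : Type) [Field N] [Algebra ℂ N] :
    ∃ ω : ℂ, Om (algebraMap ℂ N ω) (algebraMap ℂ N (-1 - ω)) := by
  obtain ⟨s, hs⟩ := IsAlgClosed.exists_pow_nat_eq (-3 : ℂ) (n := 2) two_pos
  refine ⟨(-1 + s) / 2, ?_, ?_⟩
  · rw [map_sub, map_neg, map_one]
  · rw [← map_pow, ← map_add, ← map_one (algebraMap ℂ N), ← map_add]
    rw [show ((-1 + s) / 2) ^ 2 + (-1 + s) / 2 + 1 = 0 by linear_combination hs / 4, map_zero]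

variable [IsAlgClosed N]

theorem ind_of_cl {a b a' b' : N} (h : AlgebraicIndependent ℂ ![a, b])
    (ha : a ∈ cl0 ({a', b'} : Set N)) (hb : b ∈ cl0 ({a', b'} : Set N)) :
    AlgebraicIndependent ℂ ![a', b'] := by
  have hr : Set.range ![a', b'] = {a', b'} := by
    ext z
    simp only [Set.mem_range, Set.mem_insert_iff, Set.mem_singleton_iff]
    constructor
    · rintro ⟨i, rfl⟩
      fin_cases i
      · exact Or.inl rfl
      · exact Or.inr rfl
    · rintro (rfl | rfl)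
      · exact ⟨0, rfl⟩
      · exact ⟨1, rfl⟩
  obtain ⟨s, hs⟩ := exists_indep_alg ![a', b'] ![a, b] h (by
    intro i
    rw [hr]
    fin_cases i
    · exact mem_cl0.1 ha
    · exact mem_cl0.1 hb)
  have hinj : Function.Injective s := by
    intro i j hij
    apply hs.injective
    simp only [hij]
  let e : Fin 2 ≃ Fin 2 := Equiv.ofBijective s (Finite.injective_iff_bijective.1 hinj)
  have h1 := hs.comp e.symm e.symm.injective
  convert h1 using 1
  funext i
  have h2 : s (e.symm i) = i := e.apply_symm_apply i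
  simp only [Function.comp, h2]

theorem cl0_pair_swap (a b : N) : cl0 ({a, b} : Set N) = cl0 {b, a} := by
  rw [Set.pair_comm]

/-- Cycles that are defined over a field of rational functions in two variables are relations. -/
theorem rel_of_pair {K : Type} [Field K] [Algebra ℂ K] {m : ℤ} (h4 : Algebra.trdeg ℂ N = 4)
    {a b : N} (hab : AlgebraicIndependent ℂ ![a, b]) (v : (K →ₐ[ℂ] N) →₀ ℤ)
    (hv : ∀ g : N ≃ₐ[ℂ] N, g a = a → g b = b →
      Finsupp.mapDomain (fun φ : K →ₐ[ℂ] N => g.toAlgHom.comp φ) v = v) : v ∈ Rel m K N := by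
  classical
  have h1 : AlgebraicIndepOn ℂ id (Set.range ![a, b]) := hab.coe_range
  obtain ⟨t, hst, ht⟩ := exists_isTranscendenceBasis_superset h1
  have hcard : Cardinal.mk t = 4 := by
    rw [← h4]
    exact ht.cardinalMk_eq_trdeg
  have hcard' : Cardinal.mk (Fin 4) = Cardinal.mk t := by
    rw [hcard, Cardinal.mk_fin]
    rfl
  obtain ⟨e⟩ := Cardinal.eq.1 hcard'
  let u : Fin 4 → N := fun i => (e i : N)
  have hu : AlgebraicIndependent ℂ u := ht.1.comp e e.injective
  have hru : Set.range u = t := by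
    ext z
    constructor
    · rintro ⟨i, rfl⟩
      exact (e i).2
    · intro hz
      exact ⟨e.symm ⟨z, hz⟩, by simp [u]⟩
  have hrt : Set.range ((↑) : t → N) = t := Subtype.range_coe
  refine Rel.of_stable (stable_of_fixed (IntermediateField.adjoin ℂ t) ⟨4, u, hu, by rw [hru]⟩ ?_ v
    fun g hg => ?_)
  · have h2 := ht.isAlgebraic_field
    rwa [hrt] at h2
  · exact hv g (hg _ (IntermediateField.subset_adjoin _ _ (hst ⟨0, rfl⟩)))
      (hg _ (IntermediateField.subset_adjoin _ _ (hst ⟨1, rfl⟩)))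

end field

section points

variable {K N : Type} [Field K] [Algebra ℂ K] [Field N] [Algebra ℂ N] [IsAlgClosed N] {P : Par}
  {x₀ : Fin 4 → K} {m : ℤ} {c l δ : N} {x y : Fin 4 → N}

/-- A generic point lies over a generic `(c, l)`. -/
theorem GenS.ind_cl (hirr : Irreducible (hP P)) (hy : GenS P y) (hyS : InS P c l y) :
    AlgebraicIndependent ℂ ![c, l] := by
  haveI : CharZero N := charZero_of_injective_algebraMap (algebraMap ℂ N).injective
  obtain ⟨ω, hω⟩ := exists_om N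
  have hc0 : c ≠ 0 := by
    rintro rfl
    apply hy.tau_ne hirr
    rw [hyS.tau]
    ring
  have hc : 1 + c ^ 3 ≠ 0 := by
    rw [← hyS.tau]
    exact hy.ne
  have h1 : ∀ j, y j ∈ cl0 ({c, l} : Set N) := fun j =>
    hyS.mem (cl0_closed _) hω hc0 hc (IntermediateField.algebraMap_mem _ _)
      (subset_cl0 _ (by simp)) (subset_cl0 _ (by simp)) j
  obtain ⟨i, j, hij⟩ := hy.ind
  exact ind_of_cl hij (h1 i) (h1 j)

theorem ind_ne_zero {a b : N} (h : AlgebraicIndependent ℂ ![a, b]) : a ≠ 0 := by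
  rintro rfl
  exact (indep_iff.1 h).1 isAlgebraic_zero

theorem ind_cube_ne {a b : N} (h : AlgebraicIndependent ℂ ![a, b]) : 1 + a ^ 3 ≠ 0 := by
  intro h0
  apply (indep_iff.1 h).1
  refine ⟨1 + X ^ 3, ?_, ?_⟩
  · intro h1
    have h2 := congrArg (fun p : ℂ[X] => p.coeff 3) h1
    simp [coeff_one] at h2
  · simp only [map_add, map_one, map_pow, aeval_X]
    exact h0

/-- The points over a generic `(c, l)` are generic. -/
theorem InS.genS (hirr : Irreducible (hP P)) (hcl : AlgebraicIndependent ℂ ![c, l])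
    (hyS : InS P c l y) : GenS P y := by
  have hc0 := ind_ne_zero hcl
  have hc := ind_cube_ne hcl
  have h0 : ∀ j, y j ∈ cl0 (Set.range y) := fun j => subset_cl0 _ ⟨j, rfl⟩
  have hcm : c ∈ cl0 (Set.range y) := by
    apply cl0_closed
    refine isAlgebraic_of_coeff (p := X ^ 3 - C (y 3)) ?_ ?_ ?_
    · intro n
      simp only [coeff_sub, coeff_X_pow, coeff_C]
      refine sub_mem ?_ ?_
      · split_ifs
        · exact one_mem _
        · exact zero_mem _
      · split_ifs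
        · exact h0 3
        · exact zero_mem _
    · exact (monic_X_pow_sub_C (y 3) three_ne_zero).ne_zero
    · simp only [eval_sub, eval_pow, eval_X, eval_C, hyS.tau, sub_self]
  have hlm : l ∈ cl0 (Set.range y) := by
    rw [← hyS.lin]
    unfold zX
    exact add_mem (add_mem (h0 1) (mul_mem (mul_mem (one_mem _) hcm) (h0 0)))
      (mul_mem (mul_mem (one_mem _) (pow_mem hcm 2)) (h0 2))
  refine GenS.of_ind hirr hyS.zA hyS.zB (by rw [hyS.tau]; exact hc) ?_
  obtain ⟨s, hs⟩ := exists_indep_alg y ![c, l] hcl (by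
    intro i
    fin_cases i
    · exact mem_cl0.1 hcm
    · exact mem_cl0.1 hlm)
  refine ⟨s 0, s 1, ?_⟩
  convert hs using 1
  funext i
  fin_cases i <;> rfl

/-- The chords of a generic member are generic. -/
theorem IsChord.ind_cl (hδ : AlgebraicIndependent ℂ ![δ, c]) (hxy : IsChord P δ x y)
    (hx : InS P c l x) (hy : InS P c l y) : AlgebraicIndependent ℂ ![c, l] := by
  haveI : CharZero N := charZero_of_injective_algebraMap (algebraMap ℂ N).injective
  obtain ⟨ω, hω⟩ := exists_om N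
  have hc0 := ind_ne_zero (indep_swap hδ)
  have hc := ind_cube_ne (indep_swap hδ)
  refine ind_of_cl hδ ?_ (subset_cl0 _ (by simp))
  exact hxy.mem_δ (cl0_closed _) hω hc0 hc (IntermediateField.algebraMap_mem _ _)
    (subset_cl0 _ (by simp)) (subset_cl0 _ (by simp)) hx hy

/-- The member through a generic chord is generic. -/
theorem IsChord.ind_δ (hcl : AlgebraicIndependent ℂ ![c, l]) (hxy : IsChord P δ x y)
    (hx : InS P c l x) (hy : InS P c l y) : AlgebraicIndependent ℂ ![δ, c] := by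
  haveI : CharZero N := charZero_of_injective_algebraMap (algebraMap ℂ N).injective
  obtain ⟨ω, hω⟩ := exists_om N
  have hc0 := ind_ne_zero hcl
  have hc := ind_cube_ne hcl
  refine ind_of_cl hcl (subset_cl0 _ (by simp)) ?_
  exact hxy.mem_l (cl0_closed _) hω hc0 hc (IntermediateField.algebraMap_mem _ _)
    (subset_cl0 _ (by simp)) (subset_cl0 _ (by simp)) hx hy

/-! ### Automorphisms -/

theorem InS.map (g : N ≃ₐ[ℂ] N) (hx : InS P c l x) : InS P (g c) (g l) (fun j => g (x j)) where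
  zA := by
    have h := map_eA P g.toAlgHom (x 0) (x 1) (x 2) (x 3)
    rw [hx.zA, map_zero] at h
    exact h.symm
  zB := by
    have h := map_eB P g.toAlgHom (x 0) (x 1) (x 2) (x 3)
    rw [hx.zB, map_zero] at h
    exact h.symm
  tau := by
    rw [hx.tau, map_pow]
  lin := by
    rw [← hx.lin]
    simp only [zX, map_add, map_mul, map_pow, map_one]

theorem IsChord.map (g : N ≃ₐ[ℂ] N) (hxy : IsChord P δ x y) :
    IsChord P (g δ) (fun j => g (x j)) (fun j => g (y j)) where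
  ne := by
    intro h
    apply hxy.ne
    funext j
    exact g.injective (congrFun h j)
  tau := by rw [hxy.tau]
  line := by
    intro t
    have h := congrArg g (hxy.line (g.symm t))
    rw [map_zero, map_add, map_mul] at h
    have h1 := map_eA P g.toAlgHom (x 0 + g.symm t * (y 0 - x 0)) (x 1 + g.symm t * (y 1 - x 1))
      (x 2 + g.symm t * (y 2 - x 2)) (x 3)
    have h2 := map_eB P g.toAlgHom (x 0 + g.symm t * (y 0 - x 0)) (x 1 + g.symm t * (y 1 - x 1))
      (x 2 + g.symm t * (y 2 - x 2)) (x 3)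
    have e : ∀ a b : N, g.toAlgHom (a + g.symm t * (b - a)) = g a + t * (g b - g a) := by
      intro a b
      change g (a + g.symm t * (b - a)) = _
      rw [map_add, map_mul, map_sub, AlgEquiv.apply_symm_apply]
    rw [e, e, e] at h1 h2
    have h1' : g (eA P (x 0 + g.symm t * (y 0 - x 0)) (x 1 + g.symm t * (y 1 - x 1))
      (x 2 + g.symm t * (y 2 - x 2)) (x 3)) = eA P (g (x 0) + t * (g (y 0) - g (x 0)))
      (g (x 1) + t * (g (y 1) - g (x 1))) (g (x 2) + t * (g (y 2) - g (x 2))) (g (x 3)) := h1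
    have h2' : g (eB P (x 0 + g.symm t * (y 0 - x 0)) (x 1 + g.symm t * (y 1 - x 1))
      (x 2 + g.symm t * (y 2 - x 2)) (x 3)) = eB P (g (x 0) + t * (g (y 0) - g (x 0)))
      (g (x 1) + t * (g (y 1) - g (x 1))) (g (x 2) + t * (g (y 2) - g (x 2))) (g (x 3)) := h2
    rw [h1', h2'] at h
    exact h

theorem chords_map (g : N ≃ₐ[ℂ] N) (hδ : g δ = δ) (hc : g c = c)
    {p : (Fin 4 → N) × (Fin 4 → N)} (hp : p ∈ chords P δ c) :
    ((fun j => g (p.1 j), fun j => g (p.2 j)) : (Fin 4 → N) × (Fin 4 → N)) ∈ chords P δ c := by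
  obtain ⟨h1, l, h2, h3⟩ := hp
  have h4 := h1.map g
  have h5 := h2.map g
  have h6 := h3.map g
  rw [hδ] at h4
  rw [hc] at h5 h6
  exact ⟨h4, g l, h5, h6⟩

/-- the hypothesis from the other side -/
def ChordHyp (P : Par) (x₀ : Fin 4 → K) (N : Type) [Field N] [Algebra ℂ N] (m n : ℤ) : Prop :=
  ∀ (δ c : N) (x y x' y' : Fin 4 → N), GenS P x → GenS P y → GenS P x' → GenS P y' →
    c ^ 3 = x 3 → c ^ 3 = x' 3 → x 1 + c * x 0 + c ^ 2 * x 2 = y 1 + c * y 0 + c ^ 2 * y 2 →
    x' 1 + c * x' 0 + c ^ 2 * x' 2 = y' 1 + c * y' 0 + c ^ 2 * y' 2 → IsChord P δ x y →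
    IsChord P δ x' y' → AlgebraicIndependent ℂ ![δ, c] →
    n • ((pt x₀ x + pt x₀ y) - (pt x₀ x' + pt x₀ y')) ∈ Rel m K N

theorem InS.eq_lin (hx : InS P c l x) (hy : InS P c l y) :
    x 1 + c * x 0 + c ^ 2 * x 2 = y 1 + c * y 0 + c ^ 2 * y 2 := by
  have h1 := hx.lin
  have h2 := hy.lin
  unfold zX at h1 h2
  linear_combination h1 - h2

/-- Multiples of the cycles of the chords are relations. -/
theorem chord_rel (h4 : Algebra.trdeg ℂ N = 4) (hx₀ : IsFF P x₀) {n : ℤ} (hn : n ≠ 0)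
    (hT : ChordHyp P x₀ N m n) (hδ : AlgebraicIndependent ℂ ![δ, c]) (hxy : IsChord P δ x y)
    (hx : InS P c l x) (hy : InS P c l y) :
    ∃ e : ℤ, e ≠ 0 ∧ e • (pt x₀ x + pt x₀ y) ∈ Rel m K N := by
  classical
  haveI : CharZero N := charZero_of_injective_algebraMap (algebraMap ℂ N).injective
  obtain ⟨ω, hω⟩ := exists_om N
  have hirr := hx₀.irr
  have hc0 := ind_ne_zero (indep_swap hδ)
  have hc := ind_cube_ne (indep_swap hδ)
  have hfin : (chords P δ c).Finite := finite_chords hω hc0 hc δ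
  set T := hfin.toFinset with hTdef
  have hmem : ∀ p, p ∈ T ↔ p ∈ chords P δ c := fun p => Set.Finite.mem_toFinset hfin
  have h0 : (x, y) ∈ T := (hmem _).2 ⟨hxy, l, hx, hy⟩
  have hcl := hxy.ind_cl hδ hx hy
  have hV : ∑ p ∈ T, (pt x₀ p.1 + pt x₀ p.2) ∈ Rel m K N := by
    refine rel_of_pair h4 hδ _ fun g hgδ hgc => ?_
    have h1 : Finsupp.mapDomain (fun φ : K →ₐ[ℂ] N => g.toAlgHom.comp φ) =
        Finsupp.mapDomain.addMonoidHom (fun φ : K →ₐ[ℂ] N => g.toAlgHom.comp φ) (M := ℤ) := rfl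
    rw [h1, map_sum, ← h1]
    have hgδ' : g.symm δ = δ := by
      rw [AlgEquiv.symm_apply_eq]
      exact hgδ.symm
    have hgc' : g.symm c = c := by
      rw [AlgEquiv.symm_apply_eq]
      exact hgc.symm
    refine Finset.sum_nbij' (fun p => (fun j => g (p.1 j), fun j => g (p.2 j)))
      (fun p => (fun j => g.symm (p.1 j), fun j => g.symm (p.2 j))) ?_ ?_ ?_ ?_ ?_
    · intro p hp
      exact (hmem _).2 (chords_map g hgδ hgc ((hmem _).1 hp))
    · intro p hp
      exact (hmem _).2 (chords_map g.symm hgδ' hgc' ((hmem _).1 hp))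
    · intro p _
      simp only [AlgEquiv.symm_apply_apply]
    · intro p _
      simp only [AlgEquiv.apply_symm_apply]
    · intro p _
      rw [h1, map_add, ← h1, map_pt_all hx₀, map_pt_all hx₀]
      rfl
  refine ⟨n * T.card, mul_ne_zero hn ?_, ?_⟩
  · have h1 : 0 < T.card := Finset.card_pos.2 ⟨_, h0⟩
    exact_mod_cast h1.ne'
  · have h1 : (n * T.card : ℤ) • (pt x₀ x + pt x₀ y) =
        ∑ p ∈ T, n • ((pt x₀ x + pt x₀ y) - (pt x₀ p.1 + pt x₀ p.2)) +
          n • ∑ p ∈ T, (pt x₀ p.1 + pt x₀ p.2) := by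
      rw [← Finset.smul_sum, Finset.sum_sub_distrib, Finset.sum_const, ← smul_add,
        sub_add_cancel, mul_smul]
      rfl
    rw [h1]
    refine AddSubgroup.add_mem _ (AddSubgroup.sum_mem _ fun p hp => ?_)
      (AddSubgroup.zsmul_mem _ hV n)
    obtain ⟨hp1, l', hp2, hp3⟩ := (hmem p).1 hp
    have hcl' := hp1.ind_cl hδ hp2 hp3
    exact hT δ c x y p.1 p.2 (hx.genS hirr hcl) (hy.genS hirr hcl) (hp2.genS hirr hcl')
      (hp3.genS hirr hcl') hx.tau.symm hp2.tau.symm (hx.eq_lin hy) (hp2.eq_lin hp3) hxy hp1 hδ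

/-- **The first side.** -/
theorem K_side (h4 : Algebra.trdeg ℂ N = 4) (hx₀ : IsFF P x₀) {n : ℤ} (hn : n ≠ 0)
    (hT : ChordHyp P x₀ N m n) (hy : GenS P y) :
    ∃ e : ℤ, e ≠ 0 ∧ e • pt x₀ y ∈ Rel m K N := by
  haveI : CharZero N := charZero_of_injective_algebraMap (algebraMap ℂ N).injective
  have hirr := hx₀.irr
  obtain ⟨c, hc3⟩ := IsAlgClosed.exists_pow_nat_eq (y 3) (n := 3) (by norm_num)
  have hyS : InS P c (zX 1 1 c y) y := ⟨hy.zA, hy.zB, hc3.symm, rfl⟩
  obtain ⟨l, hl⟩ : ∃ l, l = zX 1 1 c y := ⟨_, rfl⟩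
  rw [← hl] at hyS
  have hcl := hy.ind_cl hirr hyS
  have hc0 := ind_ne_zero hcl
  have hc := ind_cube_ne hcl
  obtain ⟨ω, hω⟩ := exists_om N
  have hM := cl0_closed ({c} : Set N)
  have hlM : l ∉ cl0 ({c} : Set N) := (indep_iff.1 hcl).2
  have hcM : c ∈ cl0 ({c} : Set N) := subset_cl0 _ (by simp)
  have hw : algebraMap ℂ N ω ∈ cl0 ({c} : Set N) := IntermediateField.algebraMap_mem _ _
  have hw' := hω.mem hw
  obtain ⟨y2, y3, h2, h3, n12, n13, n23⟩ := exists_three_pts (P := P) hM hω hc0 hc hw hcM hlM y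
  have key : ∀ {a b : Fin 4 → N}, InS P c l a → InS P c l b → a ≠ b →
      ∃ e : ℤ, e ≠ 0 ∧ e • (pt x₀ a + pt x₀ b) ∈ Rel m K N := by
    intro a b ha hb hab
    obtain ⟨δ, hδ⟩ := exists_chord hω ha hb hab (by
      refine mul_ne_zero (mul_ne_zero (kA_ne hc) (sub_ne_zero.2 fun h => ?_))
        (sub_ne_zero.2 fun h => ?_)
      · exact hab (ha.ext_X hM hω hc0 hc hw hcM hlM hb h.symm)
      · exact hab (ha.ext_X hM hω.symm hc0 hc hw' hcM hlM hb h.symm))
    exact chord_rel h4 hx₀ hn hT (hδ.ind_δ hcl ha hb) hδ ha hb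
  obtain ⟨e1, he1, r1⟩ := key hyS h2 n12
  obtain ⟨e2, he2, r2⟩ := key hyS h3 n13
  obtain ⟨e3, he3, r3⟩ := key h2 h3 n23
  refine ⟨2 * (e1 * e2 * e3), mul_ne_zero (by norm_num) (mul_ne_zero (mul_ne_zero he1 he2) he3),
    ?_⟩
  have h5 : (2 * (e1 * e2 * e3)) • pt x₀ y = (e2 * e3) • (e1 • (pt x₀ y + pt x₀ y2)) +
      (e1 * e3) • (e2 • (pt x₀ y + pt x₀ y3)) - (e1 * e2) • (e3 • (pt x₀ y2 + pt x₀ y3)) := by
    module
  rw [h5]
  exact AddSubgroup.sub_mem _ (AddSubgroup.add_mem _ (AddSubgroup.zsmul_mem _ r1 _)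
    (AddSubgroup.zsmul_mem _ r2 _)) (AddSubgroup.zsmul_mem _ r3 _)

/-- The first side, for embeddings. -/
theorem K_side' (h4 : Algebra.trdeg ℂ N = 4) (hx₀ : IsFF P x₀) {n : ℤ} (hn : n ≠ 0)
    (hT : ChordHyp P x₀ N m n) (φ : K →ₐ[ℂ] N) :
    ∃ e : ℤ, e ≠ 0 ∧ Finsupp.single φ e ∈ Rel m K N := by
  obtain ⟨e, he, h⟩ := K_side h4 hx₀ hn hT (GenS.of_phi hx₀ φ)
  refine ⟨e, he, ?_⟩
  rw [pt_phi hx₀, Finsupp.smul_single, smul_eq_mul, mul_one] at h
  exact h

end points

end Vale.Agent.P297.H288
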