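import Vale.Agent.P297.H288.Z3Pts

/-!
The planes `z₀ = l` through a line at infinity: the two equations of the surface become two conics.
-/

set_option linter.unusedSectionVars false
set_option linter.style.haveILetI false
set_option linter.unusedSimpArgs false

namespace Vale.Agent.P297.H288

open Polynomial

section ring

variable {R : Type*} [CommRing R] [Algebra ℂ R] (P : Par)

/-- the linear form `z₁` (`z₂` for the other order of `w`, `w'`, `z₀` for `w = w' = 1`) -/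
def zX (w w' c : R) (y : Fin 4 → R) : R := y 1 + w * c * y 0 + w' * c ^ 2 * y 2

def kA (c : R) : R := 3 * (1 - c + c ^ 2)

def kB (w w' c l : R) : R := 3 * (1 - w' * c + w * c ^ 2) * l - 9 * c ^ 2 * w' -
  (1 + c ^ 3) * (algebraMap ℂ R (P.z 2) * c * w + algebraMap ℂ R (P.z 3))

def kE (c l : R) : R := -9 * c ^ 2 * l - (1 + c ^ 3) *
  ((algebraMap ℂ R (P.z 2) * c + algebraMap ℂ R (P.z 3)) * l +
    3 * algebraMap ℂ R (P.z 0) * c ^ 3 + 3 * algebraMap ℂ R (P.z 1))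

def k11 (w w' c : R) : R := -(1 - w * c + w' * c ^ 2)

def k12 (c l : R) : R := 3 * l + (1 + c) ^ 2

def k1 (w w' c l : R) : R := l * (1 + w' * c) ^ 2 -
  (1 + c ^ 3) * (algebraMap ℂ R (P.t 2) * c * w + algebraMap ℂ R (P.t 3))

def k0 (c l : R) : R := -((1 - c + c ^ 2) * l ^ 2) - (1 + c ^ 3) *
  ((algebraMap ℂ R (P.t 2) * c + algebraMap ℂ R (P.t 3)) * l +
    3 * algebraMap ℂ R (P.t 0) * c ^ 3 + 3 * algebraMap ℂ R (P.t 1))

/-- the first conic -/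
def qa (w w' c l X Y : R) : R :=
  kA c * X * Y + kB P w w' c l * X + kB P w' w c l * Y + kE P c l

/-- the second conic -/
def qb (w w' c l X Y : R) : R := k11 w w' c * X ^ 2 + k12 c l * X * Y + k11 w' w c * Y ^ 2 +
  k1 P w w' c l * X + k1 P w' w c l * Y + k0 P c l

theorem qa_symm (w w' c l X Y : R) : qa P w' w c l Y X = qa P w w' c l X Y := by
  unfold qa
  ring

theorem qb_symm (w w' c l X Y : R) : qb P w' w c l Y X = qb P w w' c l X Y := by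
  unfold qb
  ring

theorem eA_eq {w w' : R} (h1 : w' = -1 - w) (hw : w ^ 2 + w + 1 = 0) (c : R) (y : Fin 4 → R) :
    3 * eA P (y 0) (y 1) (y 2) (c ^ 3) =
      qa P w w' c (zX 1 1 c y) (zX w w' c y) (zX w' w c y) := by
  subst h1
  obtain ⟨s, hs⟩ : ∃ s, s = y 0 := ⟨_, rfl⟩
  obtain ⟨u, hu⟩ : ∃ u, u = y 1 := ⟨_, rfl⟩
  obtain ⟨v, hv⟩ : ∃ v, v = y 2 := ⟨_, rfl⟩
  unfold qa zX kA kB kE eA A0 A2 qQ
  rw [← hs, ← hu, ← hv]
  linear_combination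
    (-3 * s ^ 2 * c ^ 4 - 9 * s ^ 2 * c ^ 3 + 3 * s ^ 2 * c ^ 2 - 6 * s * u * c ^ 3 - 6 * s
    * u * c ^ 2 - 6 * s * v * c ^ 5 + 6 * s * v * c ^ 4 - 6 * s * v * c ^ 3
    + 2 * s * c ^ 5 * algebraMap ℂ R (P.z 2) - 18 * s * c ^ 3
    + 2 * s * c ^ 2 * algebraMap ℂ R (P.z 2) + 6 * u * v * c ^ 4 + 6 * u * v * c ^ 3 + 9
    * v ^ 2 * c ^ 6 + 3 * v ^ 2 * c ^ 5 + 3 * v ^ 2 * c ^ 4
    - 2 * v * c ^ 6 * algebraMap ℂ R (P.z 2) + 18 * v *
    c ^ 4 - 2 * v * c ^ 3 * algebraMap ℂ R (P.z 2)) * hw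

theorem eB_eq {w w' : R} (h1 : w' = -1 - w) (hw : w ^ 2 + w + 1 = 0) (c : R) (y : Fin 4 → R) :
    3 * eB P (y 0) (y 1) (y 2) (c ^ 3) =
      qb P w w' c (zX 1 1 c y) (zX w w' c y) (zX w' w c y) := by
  subst h1
  obtain ⟨s, hs⟩ : ∃ s, s = y 0 := ⟨_, rfl⟩
  obtain ⟨u, hu⟩ : ∃ u, u = y 1 := ⟨_, rfl⟩
  obtain ⟨v, hv⟩ : ∃ v, v = y 2 := ⟨_, rfl⟩
  unfold qb zX k11 k12 k1 k0 eB B0 B2 qQ
  rw [← hs, ← hu, ← hv]
  linear_combination
    (3 * s ^ 3 * c ^ 3 + 3 * s ^ 2 * u * c ^ 2 - 3 * s ^ 2 * v * c ^ 4 + s ^ 2 * c ^ 4 + 9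
    * s ^ 2 * c ^ 3 + 3 * s ^ 2 * c ^ 2 - 6 * s * u * v * c ^ 3 - 7 * s * u * c ^ 3 - 3 * s
    * v ^ 2 * c ^ 5 + 2 * s * v * c ^ 5 - 6 * s * v * c ^ 4 - 6 * s * v * c ^ 3
    + 2 * s * c ^ 5 * algebraMap ℂ R (P.t 2) + 2 * s * c ^ 2 * algebraMap ℂ R (P.t 2)
    - 2 * u ^ 2 * c ^ 2 + 3 * u * v ^ 2 * c ^ 4 + 5 * u * v *
    c ^ 4 + 3 * v ^ 3 * c ^ 6 + v ^ 2 * c ^ 6 - 3 * v ^ 2 * c ^ 5 + 3 * v ^ 2 * c ^ 4 - 2 *
    v * c ^ 6 * algebraMap ℂ R (P.t 2) - 2 * v * c ^ 3 * algebraMap ℂ R (P.t 2)) * hw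

/-! ### The quartic -/

def r4 (A K : R) : R := K * A ^ 2

def r3 (A B C K k12 k1 : R) : R := 2 * K * A * C - k12 * B * A + k1 * A ^ 2

def r2 (A B C E K k12 K' k1 k2 k0 : R) : R :=
  K * C ^ 2 - k12 * (B * C + E * A) + K' * B ^ 2 + 2 * k1 * A * C - k2 * B * A + k0 * A ^ 2

def r1 (A B C E k12 K' k1 k2 k0 : R) : R :=
  2 * K' * B * E - k12 * E * C + k1 * C ^ 2 - k2 * (B * C + E * A) + 2 * k0 * A * C

def r0 (C E K' k2 k0 : R) : R := K' * E ^ 2 - k2 * E * C + k0 * C ^ 2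

omit [Algebra ℂ R] in
theorem r_eq (A B C E K k12 K' k1 k2 k0 X Y : R) (h : A * X * Y + B * X + C * Y + E = 0) :
    r4 A K * X ^ 4 + r3 A B C K k12 k1 * X ^ 3 + r2 A B C E K k12 K' k1 k2 k0 * X ^ 2 +
      r1 A B C E k12 K' k1 k2 k0 * X + r0 C E K' k2 k0 =
      (A * X + C) ^ 2 * (K * X ^ 2 + k12 * X * Y + K' * Y ^ 2 + k1 * X + k2 * Y + k0) := by
  unfold r4 r3 r2 r1 r0
  linear_combination -(k12 * X * (A * X + C) + K' * ((A * X + C) * Y - (B * X + E)) +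
    k2 * (A * X + C)) * h

omit [Algebra ℂ R] in
theorem r_eq' (A B C E K k12 K' k1 k2 k0 X : R) (h : A * X + C = 0) :
    A ^ 2 * (r4 A K * X ^ 4 + r3 A B C K k12 k1 * X ^ 3 + r2 A B C E K k12 K' k1 k2 k0 * X ^ 2 +
      r1 A B C E k12 K' k1 k2 k0 * X + r0 C E K' k2 k0) = K' * (B * C - A * E) ^ 2 := by
  have h1 : C = -(A * X) := by linear_combination h
  subst h1
  unfold r4 r3 r2 r1 r0
  ring

/-- the discriminant of a quartic -/
def disc4 (a b c d e : R) : R := 256 * a ^ 3 * e ^ 3 - 192 * a ^ 2 * b * d * e ^ 2 -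
  128 * a ^ 2 * c ^ 2 * e ^ 2 + 144 * a ^ 2 * c * d ^ 2 * e - 27 * a ^ 2 * d ^ 4 +
  144 * a * b ^ 2 * c * e ^ 2 - 6 * a * b ^ 2 * d ^ 2 * e - 80 * a * b * c ^ 2 * d * e +
  18 * a * b * c * d ^ 3 + 16 * a * c ^ 4 * e - 4 * a * c ^ 3 * d ^ 2 - 27 * b ^ 4 * e ^ 2 +
  18 * b ^ 3 * c * d * e - 4 * b ^ 3 * d ^ 3 - 4 * b ^ 2 * c ^ 3 * e + b ^ 2 * c ^ 2 * d ^ 2

omit [Algebra ℂ R] in
theorem disc4_eq_zero {a b c d e x : R} (h0 : a * x ^ 4 + b * x ^ 3 + c * x ^ 2 + d * x + e = 0)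
    (h1 : 4 * a * x ^ 3 + 3 * b * x ^ 2 + 2 * c * x + d = 0) : disc4 a b c d e = 0 := by
  have hd : d = -(4 * a * x ^ 3 + 3 * b * x ^ 2 + 2 * c * x) := by linear_combination h1
  have he : e = -(a * x ^ 4 + b * x ^ 3 + c * x ^ 2 + d * x) := by linear_combination h0
  subst he
  subst hd
  unfold disc4
  ring

/-- the determinant of a conic -/
def det3 (a b d e f g : R) : R := 4 * a * d * g + b * e * f - a * f ^ 2 - d * e ^ 2 - g * b ^ 2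

end ring

/-! ### Leading coefficients -/

/-- `p` has degree at most `n`, and the coefficient of degree `n` is `a`. -/
structure HT {F : Type*} [CommRing F] (p : F[X]) (n : ℕ) (a : F) : Prop where
  deg : p.natDegree ≤ n
  top : p.coeff n = a

namespace HT

variable {F : Type*} [CommRing F] {p q : F[X]} {n m : ℕ} {a b : F}

theorem add (hp : HT p n a) (hq : HT q n b) : HT (p + q) n (a + b) :=
  ⟨(natDegree_add_le _ _).trans (max_le hp.deg hq.deg), by rw [coeff_add, hp.top, hq.top]⟩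

theorem neg (hp : HT p n a) : HT (-p) n (-a) :=
  ⟨by rw [natDegree_neg]; exact hp.deg, by rw [coeff_neg, hp.top]⟩

theorem sub (hp : HT p n a) (hq : HT q n b) : HT (p - q) n (a - b) := by
  rw [sub_eq_add_neg, sub_eq_add_neg]
  exact hp.add hq.neg

theorem mul (hp : HT p n a) (hq : HT q m b) : HT (p * q) (n + m) (a * b) :=
  ⟨natDegree_mul_le.trans (add_le_add hp.deg hq.deg), by
    rw [coeff_mul_add_eq_of_natDegree_le hp.deg hq.deg, hp.top, hq.top]⟩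

theorem pow (hp : HT p n a) : ∀ k : ℕ, HT (p ^ k) (k * n) (a ^ k)
  | 0 => ⟨by simp, by simp⟩
  | k + 1 => by
    have h := (hp.pow k).mul hp
    rw [← pow_succ, ← pow_succ, ← Nat.succ_mul] at h
    exact h

theorem C (a : F) : HT (C a) 0 a := ⟨by simp, by simp⟩

theorem X : HT (X : F[X]) 1 1 := ⟨natDegree_X_le, coeff_X_one⟩

theorem up (hp : HT p n a) (h : n < m) : HT p m 0 :=
  ⟨hp.deg.trans h.le, coeff_eq_zero_of_natDegree_lt (hp.deg.trans_lt h)⟩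

theorem cast (hp : HT p n a) (h : n = m) : HT p m a := h ▸ hp

theorem val (hp : HT p n a) (h : a = b) : HT p n b := h ▸ hp

theorem num (k : ℕ) [k.AtLeastTwo] : HT (OfNat.ofNat k : F[X]) 0 (OfNat.ofNat k) :=
  ⟨by simp, by simp⟩

theorem one : HT (1 : F[X]) 0 1 := ⟨by simp, by simp⟩

theorem ne_zero (hp : HT p n a) (ha : a ≠ 0) : p ≠ 0 := by
  rintro rfl
  apply ha
  rw [← hp.top, coeff_zero]

end HT

end Vale.Agent.P297.H288
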