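import Vale.Agent.P297.H777.GenFacts

/-!
The general numerical Godeaux surface with torsion of order three: the equations, the generic
points, the embeddings of the function field.
-/

set_option linter.unusedSectionVars false
set_option linter.style.haveILetI false
set_option linter.unusedSimpArgs false

open IntermediateField

namespace Vale.Agent.P297.H288

open Vale.Agent.P297 Vale.Agent.P297.Gen Vale.Agent.P297.H777

/-- The eight parameters. -/
structure Par where
  z : Fin 4 → ℂ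
  t : Fin 4 → ℂ

section defs

variable {R : Type*} [CommRing R] [Algebra ℂ R] (P : Par)

/-- the quadric -/
def qQ (s u v : R) : R := s ^ 2 + u ^ 2 + v ^ 2 + s * u + s * v - u * v + 3 * s

def A0 (u : R) : R := 3 * u ^ 2 - algebraMap ℂ R (P.z 3) * u - algebraMap ℂ R (P.z 1)

def A2 (v : R) : R := 3 * v ^ 2 - algebraMap ℂ R (P.z 2) * v - algebraMap ℂ R (P.z 0)

def B0 (u : R) : R := u ^ 3 - algebraMap ℂ R (P.t 3) * u - algebraMap ℂ R (P.t 1)

def B2 (v : R) : R := v ^ 3 - algebraMap ℂ R (P.t 2) * v - algebraMap ℂ R (P.t 0)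

/-- the first equation -/
def eA (s u v τ : R) : R := (1 + τ) * (τ * A2 P v + A0 P u) - 3 * τ * qQ s u v

/-- the second equation -/
def eB (s u v τ : R) : R := (1 + τ) * (τ * B2 P v + B0 P u) + τ * (s - u - v) * qQ s u v

def fU (s u v : R) : R := 3 * B0 P u + (s - u - v) * A0 P u

def fV (s u v : R) : R := 3 * B2 P v + (s - u - v) * A2 P v

/-- the equation of the image of the surface in the `(s, u, v)`-space -/
def fH (s u v : R) : R :=
  (fU P s u v - fV P s u v) * (A0 P u * B2 P v - A2 P v * B0 P u) - fU P s u v * fV P s u v * qQ s u v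

/-- the linear combination of the two equations -/
theorem three_eB (s u v τ : R) : 3 * eB P s u v τ + (s - u - v) * eA P s u v τ =
    (1 + τ) * (τ * fV P s u v + fU P s u v) := by
  unfold eB eA fU fV
  ring

theorem fH_identity (s u v τ : R) :
    3 * (1 + τ) * fH P s u v = -((1 + τ) * fV P s u v ^ 2 * eA P s u v τ) +
      (τ * fV P s u v + fU P s u v) * (fV P s u v * eA P s u v τ - 3 * fV P s u v * qQ s u v
        - (1 + τ) * A2 P v * (τ * fV P s u v + fU P s u v) + (1 + τ) ^ 2 * A2 P v * fV P s u v) := by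
  unfold fH eA
  unfold fU fV
  ring

variable {R' : Type*} [CommRing R'] [Algebra ℂ R'] (f : R →ₐ[ℂ] R')

theorem map_qQ (s u v : R) : f (qQ s u v) = qQ (f s) (f u) (f v) := by
  simp only [qQ, map_add, map_sub, map_mul, map_pow, map_ofNat]

theorem map_A0 (u : R) : f (A0 P u) = A0 P (f u) := by
  simp only [A0, map_sub, map_mul, map_pow, map_ofNat, AlgHom.commutes]

theorem map_A2 (u : R) : f (A2 P u) = A2 P (f u) := by
  simp only [A2, map_sub, map_mul, map_pow, map_ofNat, AlgHom.commutes]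

theorem map_B0 (u : R) : f (B0 P u) = B0 P (f u) := by
  simp only [B0, map_sub, map_mul, map_pow, AlgHom.commutes]

theorem map_B2 (u : R) : f (B2 P u) = B2 P (f u) := by
  simp only [B2, map_sub, map_mul, map_pow, AlgHom.commutes]

theorem map_eA (s u v τ : R) : f (eA P s u v τ) = eA P (f s) (f u) (f v) (f τ) := by
  simp only [eA, map_add, map_sub, map_mul, map_one, map_ofNat, map_A0, map_A2, map_qQ]

theorem map_eB (s u v τ : R) : f (eB P s u v τ) = eB P (f s) (f u) (f v) (f τ) := by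
  simp only [eB, map_add, map_sub, map_mul, map_one, map_ofNat, map_B0, map_B2, map_qQ]

theorem map_fU (s u v : R) : f (fU P s u v) = fU P (f s) (f u) (f v) := by
  simp only [fU, map_add, map_sub, map_mul, map_ofNat, map_B0, map_A0]

theorem map_fV (s u v : R) : f (fV P s u v) = fV P (f s) (f u) (f v) := by
  simp only [fV, map_add, map_sub, map_mul, map_ofNat, map_B2, map_A2]

theorem map_fH (s u v : R) : f (fH P s u v) = fH P (f s) (f u) (f v) := by
  simp only [fH, map_add, map_sub, map_mul, map_A0, map_A2, map_B0, map_B2, map_qQ, map_fU, map_fV]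

end defs

/-- the polynomial -/
noncomputable def hP (P : Par) : MvPolynomial (Fin 3) ℂ :=
  fH P (MvPolynomial.X 0) (MvPolynomial.X 1) (MvPolynomial.X 2)

theorem aeval_hP (P : Par) {R : Type*} [CommRing R] [Algebra ℂ R] (y : Fin 3 → R) :
    MvPolynomial.aeval y (hP P) = fH P (y 0) (y 1) (y 2) := by
  unfold hP
  rw [map_fH, MvPolynomial.aeval_X, MvPolynomial.aeval_X, MvPolynomial.aeval_X]

/-- `x = (s, u, v, τ)` is the vector of coordinates of the generic point of the surface. -/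
structure IsFF {K : Type} [Field K] [Algebra ℂ K] (P : Par) (x : Fin 4 → K) : Prop where
  top : IntermediateField.adjoin ℂ (Set.range x) = ⊤
  zA : eA P (x 0) (x 1) (x 2) (x 3) = 0
  zB : eB P (x 0) (x 1) (x 2) (x 3) = 0
  ne : 1 + x 3 ≠ 0
  nV : fV P (x 0) (x 1) (x 2) ≠ 0
  trdeg : Algebra.trdeg ℂ K = 2
  irr : Irreducible (hP P)

/-- `y = (s, u, v, τ)` is the vector of coordinates of a generic point of the surface with values in
`N`. -/
structure GenS {N : Type} [Field N] [Algebra ℂ N] (P : Par) (y : Fin 4 → N) : Prop where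
  zA : eA P (y 0) (y 1) (y 2) (y 3) = 0
  zB : eB P (y 0) (y 1) (y 2) (y 3) = 0
  ne : 1 + y 3 ≠ 0
  nV : fV P (y 0) (y 1) (y 2) ≠ 0
  ind : ∃ i j, AlgebraicIndependent ℂ ![y i, y j]

section

variable {K N N' : Type} [Field K] [Algebra ℂ K] [Field N] [Algebra ℂ N] [Field N'] [Algebra ℂ N']
  {P : Par} {x : Fin 4 → K} {y : Fin 4 → N}

theorem GenS.tau (h : GenS P y) : y 3 * fV P (y 0) (y 1) (y 2) + fU P (y 0) (y 1) (y 2) = 0 := by
  have h1 := three_eB P (y 0) (y 1) (y 2) (y 3)
  rw [h.zA, h.zB, mul_zero, mul_zero, add_zero] at h1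
  exact (mul_eq_zero.1 h1.symm).resolve_left h.ne

theorem GenS.zH [CharZero N] (h : GenS P y) : fH P (y 0) (y 1) (y 2) = 0 := by
  have h1 := fH_identity P (y 0) (y 1) (y 2) (y 3)
  rw [h.zA, h.tau, mul_zero, neg_zero, zero_mul, add_zero] at h1
  rcases mul_eq_zero.1 h1 with h2 | h2
  · rcases mul_eq_zero.1 h2 with h3 | h3
    · exact absurd h3 (by norm_num)
    · exact absurd h3 h.ne
  · exact h2

/-- The coordinates `s`, `u`, `v` -/
def xyz {N : Type} (y : Fin 4 → N) : Fin 3 → N := ![y 0, y 1, y 2]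

theorem GenS.mem3 (h : GenS P y) (i : Fin 4) :
    y i ∈ IntermediateField.adjoin ℂ (Set.range (xyz y)) := by
  have h0 : y 0 ∈ IntermediateField.adjoin ℂ (Set.range (xyz y)) :=
    IntermediateField.subset_adjoin _ _ ⟨0, rfl⟩
  have h1 : y 1 ∈ IntermediateField.adjoin ℂ (Set.range (xyz y)) :=
    IntermediateField.subset_adjoin _ _ ⟨1, rfl⟩
  have h2 : y 2 ∈ IntermediateField.adjoin ℂ (Set.range (xyz y)) :=
    IntermediateField.subset_adjoin _ _ ⟨2, rfl⟩
  set E := IntermediateField.adjoin ℂ (Set.range (xyz y)) with hE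
  have hA2 : ∀ {w : N}, w ∈ E → A2 P w ∈ E := fun {w} hw => by
    have := (A2 P (⟨w, hw⟩ : E)).2
    have e := map_A2 P E.val (⟨w, hw⟩ : E)
    rw [show A2 P w = E.val (A2 P (⟨w, hw⟩ : E)) from e.symm]
    exact this
  have hV : fV P (y 0) (y 1) (y 2) ∈ E := by
    have e := map_fV P E.val (⟨y 0, h0⟩ : E) ⟨y 1, h1⟩ ⟨y 2, h2⟩
    have : fV P (y 0) (y 1) (y 2) = E.val (fV P (⟨y 0, h0⟩ : E) ⟨y 1, h1⟩ ⟨y 2, h2⟩) := e.symm
    rw [this]
    exact Subtype.property _
  have hU : fU P (y 0) (y 1) (y 2) ∈ E := by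
    have e := map_fU P E.val (⟨y 0, h0⟩ : E) ⟨y 1, h1⟩ ⟨y 2, h2⟩
    have : fU P (y 0) (y 1) (y 2) = E.val (fU P (⟨y 0, h0⟩ : E) ⟨y 1, h1⟩ ⟨y 2, h2⟩) := e.symm
    rw [this]
    exact Subtype.property _
  have h3 : y 3 ∈ E := by
    have e : y 3 = -fU P (y 0) (y 1) (y 2) / fV P (y 0) (y 1) (y 2) := by
      rw [eq_div_iff h.nV]
      linear_combination h.tau
    rw [e]
    exact div_mem (neg_mem hU) hV
  fin_cases i
  · exact h0
  · exact h1
  · exact h2
  · exact h3

/-- Two of `s`, `u`, `v` are algebraically independent. -/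
theorem GenS.ind3 (h : GenS P y) :
    ∃ s : Fin 2 → Fin 3, AlgebraicIndependent ℂ (fun i => xyz y (s i)) := by
  obtain ⟨i, j, hij⟩ := h.ind
  refine exists_indep (xyz y) _ hij ?_
  intro k
  fin_cases k
  · exact h.mem3 i
  · exact h.mem3 j

theorem GenS.of_trdeg (hA : eA P (y 0) (y 1) (y 2) (y 3) = 0) (hB : eB P (y 0) (y 1) (y 2) (y 3) = 0)
    (ne : 1 + y 3 ≠ 0) (nV : fV P (y 0) (y 1) (y 2) ≠ 0) (u : Fin 2 → N)
    (hu : AlgebraicIndependent ℂ u)
    (hmem : ∀ i, IsAlgebraic (IntermediateField.adjoin ℂ (Set.range y)) (u i)) : GenS P y where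
  zA := hA
  zB := hB
  ne := ne
  nV := nV
  ind := by
    obtain ⟨s, hs⟩ := exists_indep_alg y u hu hmem
    refine ⟨s 0, s 1, ?_⟩
    convert hs using 1
    funext i
    fin_cases i <;> rfl

theorem GenS.map (h : GenS P y) (σ : N →ₐ[ℂ] N') : GenS P (fun j => σ (y j)) where
  zA := by rw [← map_eA, h.zA, map_zero]
  zB := by rw [← map_eB, h.zB, map_zero]
  ne := by
    intro h0
    apply h.ne
    apply σ.toRingHom.injective
    rw [map_zero, ← h0]
    change σ (1 + y 3) = _
    rw [map_add, map_one]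
  nV := by
    intro h0
    apply h.nV
    apply σ.toRingHom.injective
    rw [map_zero, ← h0]
    exact map_fV P σ _ _ _
  ind := by
    obtain ⟨i, j, hij⟩ := h.ind
    refine ⟨i, j, ?_⟩
    have h1 := hij.map' (f := σ) σ.toRingHom.injective
    convert h1 using 1
    funext k
    fin_cases k <;> rfl

/-- Only the multiples of the equation vanish at a generic point. -/
theorem GenS.dvd [CharZero N] (hirr : Irreducible (hP P)) (h : GenS P y)
    (f : MvPolynomial (Fin 3) ℂ) : MvPolynomial.aeval (xyz y) f = 0 ↔ hP P ∣ f := by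
  obtain ⟨s, hs⟩ := h.ind3
  exact dvd_of_generic (hP P) hirr (xyz y) (by rw [aeval_hP]; exact h.zH) s hs f

theorem IsFF.genS (hx : IsFF P x) : GenS P x where
  zA := hx.zA
  zB := hx.zB
  ne := hx.ne
  nV := hx.nV
  ind := by
    obtain ⟨t, ht⟩ := exists_isTranscendenceBasis' ℂ (A := K)
    obtain ⟨u, hu⟩ := ht
    have h1 : Cardinal.mk (Fin 2) = Cardinal.mk t := by
      rw [hu.cardinalMk_eq_trdeg, hx.trdeg, Cardinal.mk_fin]
      rfl
    obtain ⟨e⟩ := Cardinal.eq.1 h1
    obtain ⟨s, hs⟩ := exists_indep x (fun i => u (e i)) (hu.1.comp e e.injective) (by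
      intro i
      rw [hx.top]
      trivial)
    refine ⟨s 0, s 1, ?_⟩
    convert hs using 1
    funext i
    fin_cases i <;> rfl

theorem IsFF.top3 (hx : IsFF P x) :
    IntermediateField.adjoin ℂ (Set.range (xyz x)) = ⊤ := by
  rw [eq_top_iff, ← hx.top, IntermediateField.adjoin_le_iff]
  rintro _ ⟨i, rfl⟩
  exact hx.genS.mem3 i

/-- Generic points are embeddings of the function field. -/
theorem GenS.exists_phi [CharZero K] [CharZero N] (hx : IsFF P x) (hy : GenS P y) :
    ∃ φ : K →ₐ[ℂ] N, ∀ j, φ (x j) = y j := by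
  obtain ⟨s, hs⟩ := hy.ind3
  obtain ⟨φ, hφ⟩ := exists_emb (xyz x) hx.top3 (n := 2) hx.trdeg (xyz y)
    (fun f hf => by
      rw [hy.dvd hx.irr]
      rwa [hx.genS.dvd hx.irr] at hf)
    (fun i => MvPolynomial.X (s i)) (by simpa only [MvPolynomial.aeval_X] using hs)
  refine ⟨φ, fun j => ?_⟩
  have h0 : φ (x 0) = y 0 := hφ 0
  have h1 : φ (x 1) = y 1 := hφ 1
  have h2 : φ (x 2) = y 2 := hφ 2
  fin_cases j
  · exact h0
  · exact h1
  · exact h2
  · change φ (x 3) = y 3
    have h3 := congrArg φ hx.genS.tau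
    rw [map_zero, map_add, map_mul, map_fV, map_fU, h0, h1, h2] at h3
    have h4 := hy.tau
    apply mul_right_cancel₀ hy.nV
    linear_combination h3 - h4

theorem phi_ext (hx : IsFF P x) {φ ψ : K →ₐ[ℂ] N} (h : ∀ j, φ (x j) = ψ (x j)) : φ = ψ := by
  apply AlgHom.ext
  intro z
  have hz : z ∈ IntermediateField.adjoin ℂ (Set.range x) := by
    rw [hx.top]
    trivial
  have hp : ∀ q : MvPolynomial (Fin 4) ℂ, φ (MvPolynomial.aeval x q) =
      ψ (MvPolynomial.aeval x q) := by
    intro q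
    rw [MvPolynomial.comp_aeval_apply, MvPolynomial.comp_aeval_apply]
    congr 2
    funext s
    exact h s
  rw [IntermediateField.mem_adjoin_range_iff] at hz
  obtain ⟨b, c, rfl⟩ := hz
  rw [map_div₀, map_div₀, hp, hp]

open Classical in
/-- The point of the function field with coordinates `y`. -/
noncomputable def pt (x : Fin 4 → K) (y : Fin 4 → N) : (K →ₐ[ℂ] N) →₀ ℤ :=
  if h : ∃ φ : K →ₐ[ℂ] N, ∀ j, φ (x j) = y j then Finsupp.single h.choose 1 else 0

theorem pt_eq (hx : IsFF P x) {φ : K →ₐ[ℂ] N} (h : ∀ j, φ (x j) = y j) :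
    pt x y = Finsupp.single φ 1 := by
  have h1 : ∃ φ : K →ₐ[ℂ] N, ∀ j, φ (x j) = y j := ⟨φ, h⟩
  unfold pt
  rw [dif_pos h1]
  congr 1
  exact phi_ext hx fun j => (h1.choose_spec j).trans (h j).symm

theorem pt_phi (hx : IsFF P x) (φ : K →ₐ[ℂ] N) : pt x (fun j => φ (x j)) = Finsupp.single φ 1 :=
  pt_eq hx fun _ => rfl

/-- Change of the field of values. -/
theorem map_pt [CharZero K] [CharZero N] (hx : IsFF P x) (hy : GenS P y) (σ : N →ₐ[ℂ] N') :
    Finsupp.mapDomain (fun φ : K →ₐ[ℂ] N => σ.comp φ) (pt x y) = pt x (fun j => σ (y j)) := by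
  obtain ⟨φ, hφ⟩ := hy.exists_phi hx
  rw [pt_eq hx hφ, Finsupp.mapDomain_single]
  refine (pt_eq hx fun j => ?_).symm
  rw [AlgHom.comp_apply, hφ]

end

end Vale.Agent.P297.H288
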