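import Vale.Agent.P297.H288.ChordFull
import Vale.Agent.P297.H251.Det
import Vale.Agent.P297.H637.Link

/-!
The data of a chord.
-/

set_option linter.unusedSectionVars false
set_option linter.style.haveILetI false

namespace Vale.Agent.P297.H288

open Polynomial
open Vale.Agent.P297 Vale.Agent.P297.Gen Vale.Agent.P297.H279

/-- **The data of a chord.** -/
theorem exists_chordDat {N : Type} [Field N] [Algebra ℂ N] [IsAlgClosed N] {P : Par}
    (hirr : Irreducible (hP P)) {δ c : N} (hδc : AlgebraicIndependent ℂ ![δ, c])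
    {x y : Fin 4 → N} (hx : GenS P x) (hy : GenS P y) (hc : c ^ 3 = x 3)
    (hl : x 1 + c * x 0 + c ^ 2 * x 2 = y 1 + c * y 0 + c ^ 2 * y 2) (h : IsChord P δ x y)
    {v : Fin 3 → N} (hv : ∀ X, e0 P δ X = (X - v 0) * (X - v 1) * (X - v 2))
    (hvF : ∀ i, v i ∈ cl0 ({δ} : Set N)) (hv01 : v 0 ≠ v 1) (hv02 : v 0 ≠ v 2)
    (hv12 : v 1 ≠ v 2) :
    ∃ (q : N) (r : Fin 3 → N) (D0 κ lc bx bz : N) (β : Fin 3 → N) (z : ℂ),
      H637.ChordDat P δ v x y q r c D0 κ lc bx bz β ∧ q ∉ cl0 ({δ} : Set N) ∧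
      (∀ k, (D0 + q * c * β k) *
        (qA P ![δ, v 0, v 1, v 2] ![q, r 0, r 1, r 2] ![0, 0, 1, algebraMap ℂ N z]).eval (β k) -
        (qB P ![δ, v 0, v 1, v 2] ![q, r 0, r 1, r 2] ![0, 0, 1, algebraMap ℂ N z]).eval (β k)
          ≠ 0) := by
  obtain ⟨q, r, D0, κ, lc, bx, bz, β, hc0, hq, hq0, hq1, h1, h2, hκ, hA, hB, hG1, hG2, hlc, hS,
    -, hx', hy', hF, hβ, -, hβF, hβr, -⟩ := chord_full hirr hδc hx hy hc hl h hv hvF hv01 hv02 hv12
  have hδ : Transcendental ℂ δ := (indep_iff.1 hδc).1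
  have hcF : c ∉ cl0 ({δ} : Set N) := (indep_iff.1 hδc).2
  obtain ⟨z, hz⟩ := H251.exists_dir (D := D0) P hδ hcF hq hv (by rw [← h1]; ring)
    (by rw [← h2]; ring) hv01 hv02 hv12 (fun t => by
      have := hF t
      rwa [mul_comm q c] at this) hβ
  refine ⟨q, r, D0, κ, lc, bx, bz, β, z, ⟨hc0, hq0, hq1, h1, h2, hκ, hA, hB, hG1, hG2, hlc, hS,
    hx', hy', hβF, hβr⟩, hq, fun k => ?_⟩
  have := hz k
  rwa [mul_comm c q] at this

end Vale.Agent.P297.H288
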