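import Vale.Agent.P297.H288.ChordNorm
import Vale.Agent.P297.H251.Line

/-!
The family of sections at a chord.
-/

set_option linter.unusedSectionVars false
set_option linter.style.haveILetI false

namespace Vale.Agent.P297.H288

open Polynomial
open Vale.Agent.P297 Vale.Agent.P297.Gen Vale.Agent.P297.H279

/-- A chord is a member of the family of sections, up to three centres. -/
theorem chord_data {N : Type} [Field N] [Algebra ℂ N] [IsAlgClosed N] {P : Par}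
    (hirr : Irreducible (hP P)) {δ c : N} (hδc : AlgebraicIndependent ℂ ![δ, c])
    {x y : Fin 4 → N} (hx : GenS P x) (hy : GenS P y) (hc : c ^ 3 = x 3)
    (hl : x 1 + c * x 0 + c ^ 2 * x 2 = y 1 + c * y 0 + c ^ 2 * y 2) (h : IsChord P δ x y)
    {v : Fin 3 → N} (hv : ∀ X, e0 P δ X = (X - v 0) * (X - v 1) * (X - v 2))
    (hvF : ∀ i, v i ∈ cl0 ({δ} : Set N)) (hv12 : v 1 ≠ v 2) :
    ∃ (q : N) (r : Fin 3 → N) (D0 κ lc bx bz : N) (β : Fin 3 → N),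
      c ≠ 0 ∧ q ∉ cl0 ({δ} : Set N) ∧ q ≠ 0 ∧ 1 + q ≠ 0 ∧
      D0 + q * c * r 1 = v 1 ∧ D0 + q * c * r 2 = v 2 ∧ κ ≠ 0 ∧
      pA P ![δ, v 0, v 1, v 2] ![q, r 0, r 1, r 2] = C κ * ∏ k, (X - C (β k)) ∧
      pB P ![δ, v 0, v 1, v 2] ![q, r 0, r 1, r 2] =
        (C D0 + C (q * c) * X) * pA P ![δ, v 0, v 1, v 2] ![q, r 0, r 1, r 2] ∧
      pG1 P ![δ, v 0, v 1, v 2] ![q, r 0, r 1, r 2] =
        C (q * c) * pA P ![δ, v 0, v 1, v 2] ![q, r 0, r 1, r 2] ∧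
      pG2 P ![δ, v 0, v 1, v 2] ![q, r 0, r 1, r 2] =
        C (q * c) * pA P ![δ, v 0, v 1, v 2] ![q, r 0, r 1, r 2] ∧
      lc ≠ 0 ∧
      pS P ![δ, v 0, v 1, v 2] ![q, r 0, r 1, r 2] =
        C lc * ((X - C bx) * (X - C bz)) * (∏ k, (X - C (β k))) ^ 6 ∧ bx ≠ bz ∧
      x = chart δ (-(c ^ 2 * (1 + q)) * (bx - r 0)) bx (D0 + q * c * bx) (c ^ 3) ∧
      y = chart δ (-(c ^ 2 * (1 + q)) * (bz - r 0)) bz (D0 + q * c * bz) (c ^ 3) ∧
      (∀ t, FT P δ (-(c ^ 2 * (1 + q)) * (t - r 0)) t (D0 + q * c * t) (c ^ 3) = 0) := by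
  have hδ : Transcendental ℂ δ := (indep_iff.1 hδc).1
  have hcF : c ∉ cl0 ({δ} : Set N) := (indep_iff.1 hδc).2
  have hc0 : c ≠ 0 := by
    rintro rfl
    exact hcF (zero_mem _)
  obtain ⟨a0, b0, d0, π, ρ, α, hne, hπ, hF, hxc, hyc, -, -⟩ := chord_line hirr hx hy hc hl h
  obtain ⟨lc, hlc, hE⟩ := chord_ES hirr hx hy hc hl h hxc hyc
  have hdir : ρ ≠ 0 ∨ α ≠ 0 := by
    by_contra hcon
    push Not at hcon
    obtain ⟨h1, h2⟩ := hcon
    apply hne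
    rw [h1, h2] at hπ
    rw [h1, h2, hπ]
    simp
  obtain ⟨hρ, q, r0, D, hq, hα, -, -, -, -⟩ := H251.chord_normal P hδ hcF hdir hπ hF
  have hq0 : q ≠ 0 := by
    rintro rfl
    exact hq (zero_mem _)
  have hq1 : 1 + q ≠ 0 := by
    intro h0
    apply hq
    rw [show q = -1 by linear_combination h0]
    exact neg_mem (one_mem _)
  have hα0 : α ≠ 0 := by
    rw [hα]
    exact mul_ne_zero (mul_ne_zero hc0 hq0) hρ
  have hs : α + c * ρ ≠ 0 := by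
    rw [hα, show c * q * ρ + c * ρ = c * ρ * (1 + q) by ring]
    exact mul_ne_zero (mul_ne_zero hc0 hρ) hq1
  obtain ⟨q', r, D0, bx, bz, l', hq', hq'0, hq'1, hl', hb, h1, h2, hF', hE', hx', hy'⟩ :=
    chord_norm hc0 hρ hα0 hs hπ hF hxc hyc hlc hE v
  have hqq : q' = q := by
    rw [hq', hα]
    field_simp
  rw [← hqq] at hq
  obtain ⟨κ, β, hκ, hA⟩ := eqA_chord P (cl0_closed ({δ} : Set N)) hvF hv12 hq hc0 hv h1 h2 hF'
  exact ⟨q', r, D0, κ, q' ^ 6 * l' * κ ^ 6, bx, bz, β, hc0, hq, hq'0, hq'1, h1, h2, hκ, hA,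
    eqB_chord P hc0 hv h1 h2 hF', eqG1_chord P hc0 hv h1 h2 hF', eqG2_chord P hc0 hv h1 h2 hF',
    mul_ne_zero (mul_ne_zero (pow_ne_zero 6 hq'0) hl') (pow_ne_zero 6 hκ),
    eqS_chord P hc0 hv h1 h2 hF' hE' hA, hb, hx', hy', hF'⟩

end Vale.Agent.P297.H288
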