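import Vale.Agent.P297.H288.ChordLine

/-!
The equation of the surface on a chord.
-/

set_option linter.unusedSectionVars false
set_option linter.style.haveILetI false

namespace Vale.Agent.P297.H288

open Vale.Agent.P297 Vale.Agent.P297.H279

/-- A chord meets the surface in the two points only. -/
theorem chord_ES {N : Type} [Field N] [Algebra ℂ N] [IsAlgClosed N] {P : Par}
    (hirr : Irreducible (hP P)) {δ c : N} {x y : Fin 4 → N} (hx : GenS P x) (hy : GenS P y)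
    (hc : c ^ 3 = x 3) (hl : x 1 + c * x 0 + c ^ 2 * x 2 = y 1 + c * y 0 + c ^ 2 * y 2)
    (h : IsChord P δ x y) {a0 b0 d0 π ρ α : N} (hxc : x = chart δ a0 b0 d0 (c ^ 3))
    (hyc : y = chart δ (a0 + π) (b0 + ρ) (d0 + α) (c ^ 3)) :
    ∃ lc : N, lc ≠ 0 ∧
      ∀ t : N, ES P δ (a0 + π * t) (b0 + ρ * t) (d0 + α * t) (c ^ 3) = lc * (t * (t - 1)) := by
  haveI : CharZero N := charZero_of_injective_algebraMap (algebraMap ℂ N).injective
  obtain ⟨ω, hω⟩ := exists_om N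
  have hτ0 : c ^ 3 ≠ 0 := by
    rw [hc]
    exact hx.tau_ne hirr
  have hc0 : c ≠ 0 := fun h0 => hτ0 (by rw [h0]; ring)
  have hτ1 : 1 + c ^ 3 ≠ 0 := by
    rw [hc]
    exact hx.ne
  have hxS : InS P c (zX 1 1 c x) x := ⟨hx.zA, hx.zB, hc.symm, rfl⟩
  have hyS : InS P c (zX 1 1 c x) y := by
    refine ⟨hy.zA, hy.zB, h.tau.symm.trans hc.symm, ?_⟩
    unfold zX
    linear_combination -hl
  have n3 : (3 : N) ≠ 0 := by norm_num
  refine ⟨kA c * (zX (algebraMap ℂ N ω) (algebraMap ℂ N (-1 - ω)) c y -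
      zX (algebraMap ℂ N ω) (algebraMap ℂ N (-1 - ω)) c x) *
      (zX (algebraMap ℂ N (-1 - ω)) (algebraMap ℂ N ω) c y -
      zX (algebraMap ℂ N (-1 - ω)) (algebraMap ℂ N ω) c x) / 3,
    div_ne_zero (dir_ne hω hc0 hτ1 hxS hyS h) n3, fun t => ?_⟩
  have h1 := eA_line hω hxS hyS t
  rw [← eA_chart P hτ0]
  have g0 : x 0 = b0 + d0 + δ := congrFun hxc 0
  have g1 : x 1 = a0 + d0 - δ := congrFun hxc 1
  have g2 : x 2 = b0 + a0 / c ^ 3 - δ := congrFun hxc 2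
  have k0 : y 0 = (b0 + ρ) + (d0 + α) + δ := congrFun hyc 0
  have k1 : y 1 = (a0 + π) + (d0 + α) - δ := congrFun hyc 1
  have k2 : y 2 = (b0 + ρ) + (a0 + π) / c ^ 3 - δ := congrFun hyc 2
  have e0 : (b0 + ρ * t) + (d0 + α * t) + δ = x 0 + t * (y 0 - x 0) := by
    rw [g0, k0]
    ring
  have e1 : (a0 + π * t) + (d0 + α * t) - δ = x 1 + t * (y 1 - x 1) := by
    rw [g1, k1]
    ring
  have e2 : (b0 + ρ * t) + (a0 + π * t) / c ^ 3 - δ = x 2 + t * (y 2 - x 2) := by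
    rw [g2, k2]
    field_simp
    ring
  rw [e0, e1, e2, hc]
  apply mul_left_cancel₀ n3
  rw [h1]
  field_simp

end Vale.Agent.P297.H288
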