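import Vale.Agent.P297.H288.ChordData
import Vale.Agent.P297.H251.Centre

/-!
The family of sections at a chord, with the properties of the centres.
-/

set_option linter.unusedSectionVars false
set_option linter.style.haveILetI false

namespace Vale.Agent.P297.H288

open Polynomial
open Vale.Agent.P297 Vale.Agent.P297.Gen Vale.Agent.P297.H279

/-- A chord is a member of the family of sections, up to three generic centres. -/
theorem chord_full {N : Type} [Field N] [Algebra ℂ N] [IsAlgClosed N] {P : Par}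
    (hirr : Irreducible (hP P)) {δ c : N} (hδc : AlgebraicIndependent ℂ ![δ, c])
    {x y : Fin 4 → N} (hx : GenS P x) (hy : GenS P y) (hc : c ^ 3 = x 3)
    (hl : x 1 + c * x 0 + c ^ 2 * x 2 = y 1 + c * y 0 + c ^ 2 * y 2) (h : IsChord P δ x y)
    {v : Fin 3 → N} (hv : ∀ X, e0 P δ X = (X - v 0) * (X - v 1) * (X - v 2))
    (hvF : ∀ i, v i ∈ cl0 ({δ} : Set N)) (hv01 : v 0 ≠ v 1) (hv02 : v 0 ≠ v 2)
    (hv12 : v 1 ≠ v 2) :
    ∃ (q : N) (r : Fin 3 → N) (D0 κ lc bx bz : N) (β : Fin 3 → N),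
      c ≠ 0 ∧ q ∉ cl0 ({δ} : Set N) ∧ q ≠ 0 ∧ 1 + q ≠ 0 ∧
      D0 + q * c * r 1 = v 1 ∧ D0 + q * c * r 2 = v 2 ∧ κ ≠ 0 ∧
      pA P ![δ, v 0, v 1, v 2] ![q, r 0, r 1, r 2] = C κ * ∏ k, (X - C (β k)) ∧
      pB P ![δ, v 0, v 1, v 2] ![q, r 0, r 1, r 2] =
        (C D0 + C (q * c) * X) * pA P ![δ, v 0, v 1, v 2] ![q, r 0, r 1, r 2] ∧
      pG1 P ![δ, v 0, v 1, v 2] ![q, r 0, r 1, r 2] =
        C (q * c) * pA P ![δ, v 0, v 1, v 2] ![q, r 0, r 1, r 2] ∧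
      pG2 P ![δ, v 0, v 1, v 2] ![q, r 0, r 1, r 2] =
        C (q * c) * pA P ![δ, v 0, v 1, v 2] ![q, r 0, r 1, r 2] ∧
      lc ≠ 0 ∧
      pS P ![δ, v 0, v 1, v 2] ![q, r 0, r 1, r 2] =
        C lc * ((X - C bx) * (X - C bz)) * (∏ k, (X - C (β k))) ^ 6 ∧ bx ≠ bz ∧
      x = chart δ (-(c ^ 2 * (1 + q)) * (bx - r 0)) bx (D0 + q * c * bx) (c ^ 3) ∧
      y = chart δ (-(c ^ 2 * (1 + q)) * (bz - r 0)) bz (D0 + q * c * bz) (c ^ 3) ∧
      (∀ t, FT P δ (-(c ^ 2 * (1 + q)) * (t - r 0)) t (D0 + q * c * t) (c ^ 3) = 0) ∧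
      (∀ k, fA P ![δ, v 0, v 1, v 2] ![q, r 0, r 1, r 2] (β k) = 0) ∧
      (∀ k, β k ∉ cl0 ({δ} : Set N)) ∧ (∀ k, β k - δ ∉ cl0 ({δ} : Set N)) ∧
      (∀ k i, β k ≠ r i) ∧ (∀ k, e2 P δ (β k) ≠ 0) := by
  obtain ⟨q, r, D0, κ, lc, bx, bz, β, hc0, hq, hq0, hq1, h1, h2, hκ, hA, hB, hG1, hG2, hlc, hS,
    hb, hx', hy', hF⟩ := chord_data hirr hδc hx hy hc hl h hv hvF hv12
  have hδ : Transcendental ℂ δ := (indep_iff.1 hδc).1
  have hcF : c ∉ cl0 ({δ} : Set N) := (indep_iff.1 hδc).2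
  have hβ : ∀ k, fA P ![δ, v 0, v 1, v 2] ![q, r 0, r 1, r 2] (β k) = 0 := by
    intro k
    have e := congrArg (fun p : N[X] => p.eval (β k)) hA
    simp only [eval_pA, eval_mul, eval_C] at e
    rw [e, eval_prod, Finset.prod_eq_zero (Finset.mem_univ k) (by simp), mul_zero]
  have hg : ∀ k, β k ∉ cl0 ({δ} : Set N) ∧ β k ≠ r 0 ∧ β k ≠ r 1 ∧ β k ≠ r 2 ∧
      e2 P δ (β k) ≠ 0 := by
    intro k
    refine H251.centre_gen (D := D0) P hδ hcF hq hv ?_ ?_ hv01 hv02 hv12 ?_ (hβ k)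
    · rw [← h1]
      ring
    · rw [← h2]
      ring
    · intro t
      have := hF t
      rwa [mul_comm q c] at this
  refine ⟨q, r, D0, κ, lc, bx, bz, β, hc0, hq, hq0, hq1, h1, h2, hκ, hA, hB, hG1, hG2, hlc, hS,
    hb, hx', hy', hF, hβ, fun k => (hg k).1, fun k hk => (hg k).1 ?_, ?_,
    fun k => (hg k).2.2.2.2⟩
  · have h3 := add_mem hk (subset_cl0 ({δ} : Set N) (Set.mem_singleton δ))
    rwa [sub_add_cancel] at h3
  · intro k i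
    fin_cases i
    · exact (hg k).2.1
    · exact (hg k).2.2.1
    · exact (hg k).2.2.2.1

end Vale.Agent.P297.H288
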