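import Vale.Agent.P297.H279.Chart
import Vale.Agent.P297.H288.KMain

/-!
A chord in the coordinates of the member of the pencil.
-/

set_option linter.unusedSectionVars false

namespace Vale.Agent.P297.H288

open Vale.Agent.P297 Vale.Agent.P297.H279

/-- A chord in the coordinates of the member `δ`. -/
theorem chord_line {N : Type} [Field N] [Algebra ℂ N] [IsAlgClosed N] {P : Par}
    (hirr : Irreducible (hP P)) {δ c : N} {x y : Fin 4 → N} (hx : GenS P x) (hy : GenS P y)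
    (hc : c ^ 3 = x 3) (hl : x 1 + c * x 0 + c ^ 2 * x 2 = y 1 + c * y 0 + c ^ 2 * y 2)
    (h : IsChord P δ x y) :
    ∃ a0 b0 d0 π ρ α : N, (π, ρ, α) ≠ 0 ∧ π = -(c * (α + c * ρ)) ∧
      (∀ t : N, FT P δ (a0 + π * t) (b0 + ρ * t) (d0 + α * t) (c ^ 3) = 0) ∧
      x = chart δ a0 b0 d0 (c ^ 3) ∧ y = chart δ (a0 + π) (b0 + ρ) (d0 + α) (c ^ 3) ∧
      ES P δ a0 b0 d0 (c ^ 3) = 0 ∧ ES P δ (a0 + π) (b0 + ρ) (d0 + α) (c ^ 3) = 0 := by
  have hτ0 : c ^ 3 ≠ 0 := by
    rw [hc]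
    exact hx.tau_ne hirr
  have hc0 : c ≠ 0 := fun h0 => hτ0 (by rw [h0]; ring)
  have hτ1 : 1 + c ^ 3 ≠ 0 := by
    rw [hc]
    exact hx.ne
  have hy3 : y 3 = c ^ 3 := h.tau.symm.trans hc.symm
  obtain ⟨ws, hws⟩ : ∃ ws, ws = y 0 - x 0 := ⟨_, rfl⟩
  obtain ⟨wu, hwu⟩ : ∃ wu, wu = y 1 - x 1 := ⟨_, rfl⟩
  obtain ⟨wv, hwv⟩ : ∃ wv, wv = y 2 - x 2 := ⟨_, rfl⟩
  have hy0 : y 0 = x 0 + ws := by rw [hws]; ring
  have hy1 : y 1 = x 1 + wu := by rw [hwu]; ring
  have hy2 : y 2 = x 2 + wv := by rw [hwv]; ring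
  have hw : wu + c * ws + c ^ 2 * wv = 0 := by
    rw [hws, hwu, hwv]
    linear_combination -hl
  obtain ⟨a0, ha0⟩ : ∃ a0, a0 = c ^ 3 * (3 * δ - (x 0 - x 1 - x 2)) / (1 + c ^ 3) := ⟨_, rfl⟩
  obtain ⟨π, hπ⟩ : ∃ π, π = -(c ^ 3 * (ws - wu - wv)) / (1 + c ^ 3) := ⟨_, rfl⟩
  have ha0' : (1 + c ^ 3) * a0 = c ^ 3 * (3 * δ - (x 0 - x 1 - x 2)) := by
    rw [ha0]
    field_simp
  have hπ' : (1 + c ^ 3) * π = -(c ^ 3 * (ws - wu - wv)) := by
    rw [hπ]
    field_simp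
  have e0 : ∀ t : N, (x 2 - a0 / c ^ 3 + δ) + (wv - π / c ^ 3) * t +
      ((x 1 - a0 + δ) + (wu - π) * t) + δ = x 0 + t * ws := by
    intro t
    apply mul_left_cancel₀ hτ0
    field_simp
    linear_combination (-1) * ha0' - t * hπ'
  have e1 : ∀ t : N, (a0 + π * t) + ((x 1 - a0 + δ) + (wu - π) * t) - δ = x 1 + t * wu := by
    intro t
    ring
  have e2 : ∀ t : N, (x 2 - a0 / c ^ 3 + δ) + (wv - π / c ^ 3) * t + (a0 + π * t) / c ^ 3 - δ =
      x 2 + t * wv := by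
    intro t
    field_simp
    ring
  have hxc : x = chart δ a0 (x 2 - a0 / c ^ 3 + δ) (x 1 - a0 + δ) (c ^ 3) := by
    have f0 := e0 0
    have f1 := e1 0
    have f2 := e2 0
    simp only [mul_zero, zero_mul, add_zero] at f0 f1 f2
    funext j
    fin_cases j
    · exact f0.symm
    · exact f1.symm
    · exact f2.symm
    · exact hc.symm
  have hyc : y = chart δ (a0 + π) ((x 2 - a0 / c ^ 3 + δ) + (wv - π / c ^ 3))
      ((x 1 - a0 + δ) + (wu - π)) (c ^ 3) := by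
    have f0 := e0 1
    have f1 := e1 1
    have f2 := e2 1
    simp only [mul_one, one_mul] at f0 f1 f2
    funext j
    fin_cases j
    · exact hy0.trans f0.symm
    · exact hy1.trans f1.symm
    · exact hy2.trans f2.symm
    · exact hy3
  refine ⟨a0, x 2 - a0 / c ^ 3 + δ, x 1 - a0 + δ, π, wv - π / c ^ 3, wu - π, ?_, ?_, ?_, hxc, hyc,
    ?_, ?_⟩
  · intro h0
    have g1 : π = 0 := congrArg Prod.fst h0
    have g2 : wv - π / c ^ 3 = 0 := congrArg (fun q : N × N × N => q.2.1) h0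
    have g3 : wu - π = 0 := congrArg (fun q : N × N × N => q.2.2) h0
    rw [g1, sub_zero] at g3
    rw [g1, zero_div, sub_zero] at g2
    rw [g2, g3, mul_zero, add_zero, zero_add] at hw
    have g4 : ws = 0 := (mul_eq_zero.1 hw).resolve_left hc0
    have k0 : x 0 = y 0 := by rw [hy0, g4, add_zero]
    have k1 : x 1 = y 1 := by rw [hy1, g3, add_zero]
    have k2 : x 2 = y 2 := by rw [hy2, g2, add_zero]
    apply h.ne
    funext j
    fin_cases j
    · exact k0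
    · exact k1
    · exact k2
    · exact h.tau
  · have hc1 : 1 + c ≠ 0 := fun h0 => hτ1 (by linear_combination (1 - c + c ^ 2) * h0)
    have hk : (1 - c + c ^ 2) * π = c ^ 2 * (wu + c * wv) := by
      apply mul_left_cancel₀ hc1
      linear_combination hπ' - c ^ 2 * hw
    have h6 : c * (c * (c * (π / c ^ 3))) = π := by field_simp
    apply mul_left_cancel₀ hc0
    linear_combination (-1) * hk - h6
  · intro t
    have g1 := h.line t
    rw [← hws, ← hwu, ← hwv, ← hc, ← e0 t, ← e1 t, ← e2 t] at g1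
    have g2 := eB_chart P (δ := δ) (a := a0 + π * t)
      (b := (x 2 - a0 / c ^ 3 + δ) + (wv - π / c ^ 3) * t)
      (d := (x 1 - a0 + δ) + (wu - π) * t) hτ0
    rw [g1, mul_zero] at g2
    exact (mul_eq_zero.1 g2.symm).resolve_left hτ1
  · rw [← eA_chart P hτ0]
    have g1 := hx.zA
    have g0 := congrFun hxc 0
    have g2 := congrFun hxc 1
    have g3 := congrFun hxc 2
    rw [chart_zero] at g0
    rw [chart_one] at g2
    rw [chart_two] at g3
    rw [← g0, ← g2, ← g3, hc]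
    exact g1
  · rw [← eA_chart P hτ0]
    have g1 := hy.zA
    have g0 := congrFun hyc 0
    have g2 := congrFun hyc 1
    have g3 := congrFun hyc 2
    rw [chart_zero] at g0
    rw [chart_one] at g2
    rw [chart_two] at g3
    rw [← g0, ← g2, ← g3, ← hy3]
    exact g1

end Vale.Agent.P297.H288
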