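import Vale.Agent.P297.H288.ChordPoly

/-!
The normal form of a chord.
-/

set_option linter.unusedSectionVars false
set_option linter.style.haveILetI false

namespace Vale.Agent.P297.H288

open Vale.Agent.P297 Vale.Agent.P297.H279

/-- The normal form of a chord, from its direction. -/
theorem chord_norm {N : Type} [Field N] [Algebra ℂ N] {P : Par} {δ c : N} {x y : Fin 4 → N}
    (hc : c ≠ 0) {a0 b0 d0 π ρ α lc : N} (hρ : ρ ≠ 0) (hα : α ≠ 0) (hs : α + c * ρ ≠ 0)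
    (hπ : π = -(c * (α + c * ρ)))
    (hF : ∀ t : N, FT P δ (a0 + π * t) (b0 + ρ * t) (d0 + α * t) (c ^ 3) = 0)
    (hxc : x = chart δ a0 b0 d0 (c ^ 3)) (hyc : y = chart δ (a0 + π) (b0 + ρ) (d0 + α) (c ^ 3))
    (hlc : lc ≠ 0)
    (hE : ∀ t : N, ES P δ (a0 + π * t) (b0 + ρ * t) (d0 + α * t) (c ^ 3) = lc * (t * (t - 1)))
    (v : Fin 3 → N) :
    ∃ (q : N) (r : Fin 3 → N) (D0 bx bz l' : N), q = α / (c * ρ) ∧ q ≠ 0 ∧ 1 + q ≠ 0 ∧ l' ≠ 0 ∧
      bx ≠ bz ∧ D0 + q * c * r 1 = v 1 ∧ D0 + q * c * r 2 = v 2 ∧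
      (∀ t, FT P δ (-(c ^ 2 * (1 + q)) * (t - r 0)) t (D0 + q * c * t) (c ^ 3) = 0) ∧
      (∀ t, ES P δ (-(c ^ 2 * (1 + q)) * (t - r 0)) t (D0 + q * c * t) (c ^ 3) =
        l' * ((t - bx) * (t - bz))) ∧
      x = chart δ (-(c ^ 2 * (1 + q)) * (bx - r 0)) bx (D0 + q * c * bx) (c ^ 3) ∧
      y = chart δ (-(c ^ 2 * (1 + q)) * (bz - r 0)) bz (D0 + q * c * bz) (c ^ 3) := by
  obtain ⟨q, hq⟩ : ∃ q, q = α / (c * ρ) := ⟨_, rfl⟩
  have hα' : α = q * c * ρ := by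
    rw [hq]
    field_simp
  have hq0 : q ≠ 0 := by
    rintro rfl
    apply hα
    rw [hα']
    ring
  have hq1 : 1 + q ≠ 0 := by
    intro h
    apply hs
    rw [hα']
    linear_combination c * ρ * h
  have hπ' : π = -(c ^ 2 * (1 + q)) * ρ := by
    rw [hπ, hα']
    ring
  have ha : ∀ t, a0 + π * ((t - b0) / ρ) =
      -(c ^ 2 * (1 + q)) * (t - (b0 + a0 / (c ^ 2 * (1 + q)))) := by
    intro t
    rw [hπ']
    field_simp
    ring
  have hb : ∀ t, b0 + ρ * ((t - b0) / ρ) = t := by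
    intro t
    field_simp
    ring
  have hd : ∀ t, d0 + α * ((t - b0) / ρ) = (d0 - q * c * b0) + q * c * t := by
    intro t
    rw [hα']
    field_simp
    ring
  refine ⟨q, ![b0 + a0 / (c ^ 2 * (1 + q)), (v 1 - (d0 - q * c * b0)) / (q * c),
    (v 2 - (d0 - q * c * b0)) / (q * c)], d0 - q * c * b0, b0, b0 + ρ, lc / ρ ^ 2, hq, hq0, hq1,
    div_ne_zero hlc (pow_ne_zero 2 hρ), ?_, ?_, ?_, ?_, ?_, ?_, ?_⟩
  · intro h
    apply hρ
    linear_combination -h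
  · change (d0 - q * c * b0) + q * c * ((v 1 - (d0 - q * c * b0)) / (q * c)) = v 1
    field_simp
    ring
  · change (d0 - q * c * b0) + q * c * ((v 2 - (d0 - q * c * b0)) / (q * c)) = v 2
    field_simp
    ring
  · intro t
    have h := hF ((t - b0) / ρ)
    rw [ha, hb, hd] at h
    exact h
  · intro t
    have h := hE ((t - b0) / ρ)
    rw [ha, hb, hd] at h
    refine h.trans ?_
    field_simp
    ring
  · have h1 := ha b0
    have h2 := hd b0
    rw [sub_self, zero_div, mul_zero, add_zero] at h1 h2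
    rw [hxc]
    exact congrArg₂ (fun a d => chart δ a b0 d (c ^ 3)) h1 h2
  · have h1 := ha (b0 + ρ)
    have h2 := hd (b0 + ρ)
    rw [add_sub_cancel_left, div_self hρ, mul_one] at h1 h2
    rw [hyc]
    exact congrArg₂ (fun a d => chart δ a (b0 + ρ) d (c ^ 3)) h1 h2

end Vale.Agent.P297.H288
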