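import Vale.Agent.P297.H279.Fam
import Vale.Agent.P297.H288.ChordES

/-!
The polynomials of the family at a chord.
-/

set_option linter.unusedSectionVars false
set_option linter.style.haveILetI false

namespace Vale.Agent.P297.H288

open Polynomial
open Vale.Agent.P297 Vale.Agent.P297.H279

section ident

variable {N : Type} [Field N] [Algebra ℂ N] (P : Par) {δ c q D0 : N} {v r : Fin 3 → N}

/-- the polynomial identity for `B` -/
theorem fB_chord (hc : c ≠ 0) (hv : ∀ X, e0 P δ X = (X - v 0) * (X - v 1) * (X - v 2))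
    (h1 : D0 + q * c * r 1 = v 1) (h2 : D0 + q * c * r 2 = v 2) {t : N}
    (hF : FT P δ (-(c ^ 2 * (1 + q)) * (t - r 0)) t (D0 + q * c * t) (c ^ 3) = 0) :
    fB P ![δ, v 0, v 1, v 2] ![q, r 0, r 1, r 2] t =
      (D0 + q * c * t) * fA P ![δ, v 0, v 1, v 2] ![q, r 0, r 1, r 2] t := by
  unfold FT at hF
  rw [hv (D0 + q * c * t), ← h1, ← h2] at hF
  have h5 : c ^ 5 * (q ^ 3 * ((D0 + q * c * t) - v 0) * ((t - r 1) * (t - r 2)) +
      q * c * e2 P δ t - q * c * (1 + q) ^ 3 * (t - r 0) ^ 3 +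
      q * (1 + q) * (t - r 0) * hh P δ t (D0 + q * c * t)) = 0 := by
    linear_combination q * hF
  have h6 := (mul_eq_zero.1 h5).resolve_left (pow_ne_zero 5 hc)
  change -(v 0 * (q ^ 3 * ((t - r 1) ^ 2 * (t - r 2) ^ 2))) - v 1 * (e2 P δ t * (t - r 2)) +
    v 2 * ((1 + q) ^ 3 * ((t - r 0) ^ 3 * (t - r 1))) + (3 * t + mu P δ) *
      (q * (1 + q) * ((t - r 0) * (t - r 1) * (t - r 2))) =
    (D0 + q * c * t) * (-(q ^ 3 * ((t - r 1) ^ 2 * (t - r 2) ^ 2)) - e2 P δ t * (t - r 2) +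
    (1 + q) ^ 3 * ((t - r 0) ^ 3 * (t - r 1)) - 3 * (t + 1) *
      (q * (1 + q) * ((t - r 0) * (t - r 1) * (t - r 2))))
  unfold hh at h6
  rw [← h1, ← h2]
  linear_combination (t - r 1) * (t - r 2) * h6

/-- the form of degree six on the chord -/
theorem phiH_chord (q c δ r0 t d : N) : phiH P δ q r0 t 1 d (q * c) (q * c) =
    q ^ 6 * ES P δ (-(c ^ 2 * (1 + q)) * (t - r0)) t d (c ^ 3) := by
  unfold phiH ES A0
  ring

end ident

section polys

variable {N : Type} [Field N] [Algebra ℂ N] (P : Par) {δ c q D0 : N} {v r : Fin 3 → N}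

theorem infinite_of_C (N : Type) [Field N] [Algebra ℂ N] : Infinite N := by
  haveI : Infinite ℂ := inferInstance
  exact Infinite.of_injective _ (algebraMap ℂ N).injective

theorem eqB_chord (hc : c ≠ 0) (hv : ∀ X, e0 P δ X = (X - v 0) * (X - v 1) * (X - v 2))
    (h1 : D0 + q * c * r 1 = v 1) (h2 : D0 + q * c * r 2 = v 2)
    (hF : ∀ t, FT P δ (-(c ^ 2 * (1 + q)) * (t - r 0)) t (D0 + q * c * t) (c ^ 3) = 0) :
    pB P ![δ, v 0, v 1, v 2] ![q, r 0, r 1, r 2] =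
      (C D0 + C (q * c) * X) * pA P ![δ, v 0, v 1, v 2] ![q, r 0, r 1, r 2] := by
  haveI := infinite_of_C N
  apply Polynomial.funext
  intro t
  rw [eval_pB, eval_mul, eval_pA, fB_chord P hc hv h1 h2 (hF t)]
  simp only [eval_add, eval_mul, eval_C, eval_X]

theorem eqG1_chord (hc : c ≠ 0) (hv : ∀ X, e0 P δ X = (X - v 0) * (X - v 1) * (X - v 2))
    (h1 : D0 + q * c * r 1 = v 1) (h2 : D0 + q * c * r 2 = v 2)
    (hF : ∀ t, FT P δ (-(c ^ 2 * (1 + q)) * (t - r 0)) t (D0 + q * c * t) (c ^ 3) = 0) :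
    pG1 P ![δ, v 0, v 1, v 2] ![q, r 0, r 1, r 2] =
      C (q * c) * pA P ![δ, v 0, v 1, v 2] ![q, r 0, r 1, r 2] := by
  have h3 := pB_sub_one P ![δ, v 0, v 1, v 2] ![q, r 0, r 1, r 2]
  rw [eqB_chord P hc hv h1 h2 hF] at h3
  have h4 : (X - C (r 1) : N[X]) ≠ 0 := X_sub_C_ne_zero _
  apply mul_left_cancel₀ h4
  have h5 : (C (v 1) : N[X]) = C D0 + C (q * c) * C (r 1) := by
    rw [← h1, map_add, map_mul]
  have h6 : (C D0 + C (q * c) * X) * pA P ![δ, v 0, v 1, v 2] ![q, r 0, r 1, r 2] -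
      C (v 1) * pA P ![δ, v 0, v 1, v 2] ![q, r 0, r 1, r 2] =
      (X - C (r 1)) * pG1 P ![δ, v 0, v 1, v 2] ![q, r 0, r 1, r 2] := h3
  rw [← h6, h5]
  ring

theorem eqG2_chord (hc : c ≠ 0) (hv : ∀ X, e0 P δ X = (X - v 0) * (X - v 1) * (X - v 2))
    (h1 : D0 + q * c * r 1 = v 1) (h2 : D0 + q * c * r 2 = v 2)
    (hF : ∀ t, FT P δ (-(c ^ 2 * (1 + q)) * (t - r 0)) t (D0 + q * c * t) (c ^ 3) = 0) :
    pG2 P ![δ, v 0, v 1, v 2] ![q, r 0, r 1, r 2] =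
      C (q * c) * pA P ![δ, v 0, v 1, v 2] ![q, r 0, r 1, r 2] := by
  have h3 := pB_sub_two P ![δ, v 0, v 1, v 2] ![q, r 0, r 1, r 2]
  rw [eqB_chord P hc hv h1 h2 hF] at h3
  have h4 : (X - C (r 2) : N[X]) ≠ 0 := X_sub_C_ne_zero _
  apply mul_left_cancel₀ h4
  have h5 : (C (v 2) : N[X]) = C D0 + C (q * c) * C (r 2) := by
    rw [← h2, map_add, map_mul]
  have h6 : (C D0 + C (q * c) * X) * pA P ![δ, v 0, v 1, v 2] ![q, r 0, r 1, r 2] -
      C (v 2) * pA P ![δ, v 0, v 1, v 2] ![q, r 0, r 1, r 2] =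
      (X - C (r 2)) * pG2 P ![δ, v 0, v 1, v 2] ![q, r 0, r 1, r 2] := h3
  rw [← h6, h5]
  ring

theorem ht_XC (a : N) : HT (X - C a : N[X]) 1 1 :=
  (HT.X.sub ((HT.C a).up zero_lt_one)).val (by ring)

theorem ht_e2 (δ : N) : HT (e2 P (C δ) X : N[X]) 3 1 := by
  unfold e2
  rw [m3_C, m1_C]
  exact ((((HT.X.pow 3).cast (by norm_num)).sub (((HT.C _).mul HT.X).up (by norm_num))).sub
    ((HT.C _).up (by norm_num))).val (by ring)

/-- the leading coefficient of `B` -/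
theorem ht_pB (δ q : N) (v r : Fin 3 → N) : HT (pB P ![δ, v 0, v 1, v 2] ![q, r 0, r 1, r 2]) 4
    (-(v 0 * q ^ 3) - v 1 + v 2 * (1 + q) ^ 3 + 3 * (q * (1 + q))) := by
  have hM : HT (C q * (1 + C q) * ((X - C (r 0)) * (X - C (r 1)) * (X - C (r 2))) : N[X]) 3
      (q * (1 + q)) :=
    ((((HT.C q).mul (HT.one.add (HT.C q))).mul
      (((ht_XC (r 0)).mul (ht_XC (r 1))).mul (ht_XC (r 2)))).cast (by norm_num)).val (by ring)
  have h3 : HT (3 * X + mu P (C δ) : N[X]) 1 3 := by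
    rw [mu_C]
    exact ((((HT.num 3).mul HT.X).cast (by norm_num)).add ((HT.C _).up (by norm_num))).val (by ring)
  have ha : HT (C (v 0) * (C q ^ 3 * ((X - C (r 1)) ^ 2 * (X - C (r 2)) ^ 2)) : N[X]) 4
      (v 0 * q ^ 3) :=
    (((HT.C (v 0)).mul (((HT.C q).pow 3).mul
      (((ht_XC (r 1)).pow 2).mul ((ht_XC (r 2)).pow 2)))).cast (by norm_num)).val (by ring)
  have hb : HT (C (v 1) * (e2 P (C δ) X * (X - C (r 2))) : N[X]) 4 (v 1) :=
    (((HT.C (v 1)).mul ((ht_e2 P δ).mul (ht_XC (r 2)))).cast (by norm_num)).val (by ring)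
  have hd : HT (C (v 2) * ((1 + C q) ^ 3 * ((X - C (r 0)) ^ 3 * (X - C (r 1)))) : N[X]) 4
      (v 2 * (1 + q) ^ 3) :=
    (((HT.C (v 2)).mul (((HT.one.add (HT.C q)).pow 3).mul
      (((ht_XC (r 0)).pow 3).mul (ht_XC (r 1))))).cast (by norm_num)).val (by ring)
  exact (((ha.neg.sub hb).add hd).add ((h3.mul hM).cast (by norm_num))).val (by ring)

/-- the leading coefficient of `A` on a chord -/
theorem kappa_chord (hc : c ≠ 0) (hv : ∀ X, e0 P δ X = (X - v 0) * (X - v 1) * (X - v 2))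
    (h1 : D0 + q * c * r 1 = v 1) (h2 : D0 + q * c * r 2 = v 2)
    (hF : ∀ t, FT P δ (-(c ^ 2 * (1 + q)) * (t - r 0)) t (D0 + q * c * t) (c ^ 3) = 0) :
    q * c * (pA P ![δ, v 0, v 1, v 2] ![q, r 0, r 1, r 2]).coeff 3 =
      -(v 0 * q ^ 3) - v 1 + v 2 * (1 + q) ^ 3 + 3 * (q * (1 + q)) := by
  have h3 : HT (pA P ![δ, v 0, v 1, v 2] ![q, r 0, r 1, r 2]) 3 _ := ⟨natDegree_pA P _ _, rfl⟩
  have h4 : HT (C D0 + C (q * c) * X : N[X]) 1 (q * c) :=
    (((HT.C D0).up (by norm_num)).add (((HT.C (q * c)).mul HT.X).cast (by norm_num))).val (by ring)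
  have h5 := (h4.mul h3).cast (show 1 + 3 = 4 by norm_num)
  rw [← eqB_chord P hc hv h1 h2 hF] at h5
  exact h5.top.symm.trans (ht_pB P δ q v r).top

/-- the factorisation of `A` on a chord -/
theorem eqA_chord [IsAlgClosed N] {F : IntermediateField ℂ N}
    (hFc : ∀ u, IsAlgebraic F u → u ∈ F) (hvF : ∀ i, v i ∈ F) (hv12 : v 1 ≠ v 2)
    (hq : q ∉ F) (hc : c ≠ 0) (hv : ∀ X, e0 P δ X = (X - v 0) * (X - v 1) * (X - v 2))
    (h1 : D0 + q * c * r 1 = v 1) (h2 : D0 + q * c * r 2 = v 2)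
    (hF : ∀ t, FT P δ (-(c ^ 2 * (1 + q)) * (t - r 0)) t (D0 + q * c * t) (c ^ 3) = 0) :
    ∃ (κ : N) (β : Fin 3 → N), κ ≠ 0 ∧
      pA P ![δ, v 0, v 1, v 2] ![q, r 0, r 1, r 2] = C κ * ∏ k, (X - C (β k)) := by
  haveI : CharZero N := charZero_of_injective_algebraMap (algebraMap ℂ N).injective
  have hq0 : q ≠ 0 := by
    rintro rfl
    exact hq (zero_mem F)
  have hk := kappa_chord P hc hv h1 h2 hF
  set κ := (pA P ![δ, v 0, v 1, v 2] ![q, r 0, r 1, r 2]).coeff 3 with hκ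
  have hne : κ ≠ 0 := by
    intro h0
    rw [h0, mul_zero] at hk
    apply hq
    apply hFc
    refine ⟨C (⟨v 2, hvF 2⟩ - ⟨v 0, hvF 0⟩ : F) * X ^ 3 + C (3 * ⟨v 2, hvF 2⟩ + 3) * X ^ 2 +
        C (3 * ⟨v 2, hvF 2⟩ + 3) * X + C (⟨v 2, hvF 2⟩ - ⟨v 1, hvF 1⟩), ?_, ?_⟩
    · intro h4
      have h5 := congrArg (fun p : F[X] => p.coeff 0) h4
      simp only [coeff_add, coeff_C_mul, coeff_X_pow, coeff_X_zero, mul_zero, coeff_C_zero,
        coeff_zero] at h5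
      norm_num at h5
      exact hv12 (sub_eq_zero.1 (congrArg Subtype.val h5)).symm
    · simp only [map_add, map_mul, map_pow, aeval_C, aeval_X]
      change (v 2 - v 0) * q ^ 3 + (3 * v 2 + 3) * q ^ 2 + (3 * v 2 + 3) * q + (v 2 - v 1) = 0
      linear_combination -hk
  have hdeg : (pA P ![δ, v 0, v 1, v 2] ![q, r 0, r 1, r 2]).natDegree = 3 :=
    le_antisymm (natDegree_pA P _ _) (le_natDegree_of_ne_zero hne)
  have hs := IsAlgClosed.splits (pA P ![δ, v 0, v 1, v 2] ![q, r 0, r 1, r 2])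
  have hcard : (pA P ![δ, v 0, v 1, v 2] ![q, r 0, r 1, r 2]).roots.card = 3 :=
    (splits_iff_card_roots.1 hs).trans hdeg
  obtain ⟨a, b, d, habd⟩ := Multiset.card_eq_three.1 hcard
  have hprod := hs.eq_prod_roots
  refine ⟨κ, ![a, b, d], hne, ?_⟩
  rw [habd] at hprod
  have hlead : (pA P ![δ, v 0, v 1, v 2] ![q, r 0, r 1, r 2]).leadingCoeff = κ := by
    rw [leadingCoeff, hdeg]
  rw [hlead] at hprod
  rw [hprod, Fin.prod_univ_three]
  simp only [Multiset.insert_eq_cons, Multiset.map_cons, Multiset.map_singleton,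
    Multiset.prod_cons, Multiset.prod_singleton, Matrix.cons_val_zero, Matrix.cons_val_one,
    Matrix.cons_val]
  ring

/-- the polynomial of the points of the surface on a chord -/
theorem eqS_chord (hc : c ≠ 0) (hv : ∀ X, e0 P δ X = (X - v 0) * (X - v 1) * (X - v 2))
    (h1 : D0 + q * c * r 1 = v 1) (h2 : D0 + q * c * r 2 = v 2)
    (hF : ∀ t, FT P δ (-(c ^ 2 * (1 + q)) * (t - r 0)) t (D0 + q * c * t) (c ^ 3) = 0)
    {l' bx bz : N} (hE : ∀ t, ES P δ (-(c ^ 2 * (1 + q)) * (t - r 0)) t (D0 + q * c * t) (c ^ 3) =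
      l' * ((t - bx) * (t - bz))) {κ : N} {β : Fin 3 → N}
    (hA : pA P ![δ, v 0, v 1, v 2] ![q, r 0, r 1, r 2] = C κ * ∏ k, (X - C (β k))) :
    pS P ![δ, v 0, v 1, v 2] ![q, r 0, r 1, r 2] =
      C (q ^ 6 * l' * κ ^ 6) * ((X - C bx) * (X - C bz)) * (∏ k, (X - C (β k))) ^ 6 := by
  haveI := infinite_of_C N
  apply Polynomial.funext
  intro t
  have eB := congrArg (fun p : N[X] => p.eval t) (eqB_chord P hc hv h1 h2 hF)
  have eG1 := congrArg (fun p : N[X] => p.eval t) (eqG1_chord P hc hv h1 h2 hF)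
  have eG2 := congrArg (fun p : N[X] => p.eval t) (eqG2_chord P hc hv h1 h2 hF)
  have eA := congrArg (fun p : N[X] => p.eval t) hA
  simp only [eval_pB, eval_pA, eval_pG1, eval_pG2, eval_mul, eval_add, eval_C, eval_X] at eB eG1 eG2 eA
  rw [eval_pS]
  unfold fS
  rw [eB, eG1, eG2]
  have h3 := phiH_smul P δ q (r 0) t 1 (D0 + q * c * t) (q * c) (q * c)
    (fA P ![δ, v 0, v 1, v 2] ![q, r 0, r 1, r 2] t)
  rw [phiH_chord, hE t] at h3
  have h4 : phiH P (![δ, v 0, v 1, v 2] 0) (![q, r 0, r 1, r 2] 0) (![q, r 0, r 1, r 2] 1) t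
      (fA P ![δ, v 0, v 1, v 2] ![q, r 0, r 1, r 2] t)
      ((D0 + q * c * t) * fA P ![δ, v 0, v 1, v 2] ![q, r 0, r 1, r 2] t)
      (q * c * fA P ![δ, v 0, v 1, v 2] ![q, r 0, r 1, r 2] t)
      (q * c * fA P ![δ, v 0, v 1, v 2] ![q, r 0, r 1, r 2] t) =
      phiH P δ q (r 0) t (fA P ![δ, v 0, v 1, v 2] ![q, r 0, r 1, r 2] t * 1)
      (fA P ![δ, v 0, v 1, v 2] ![q, r 0, r 1, r 2] t * (D0 + q * c * t))
      (fA P ![δ, v 0, v 1, v 2] ![q, r 0, r 1, r 2] t * (q * c))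
      (fA P ![δ, v 0, v 1, v 2] ![q, r 0, r 1, r 2] t * (q * c)) := by
    rw [mul_one, mul_comm (fA P ![δ, v 0, v 1, v 2] ![q, r 0, r 1, r 2] t) (D0 + q * c * t),
      mul_comm (fA P ![δ, v 0, v 1, v 2] ![q, r 0, r 1, r 2] t) (q * c)]
    rfl
  rw [h4, h3, eA]
  simp only [eval_mul, eval_C, eval_sub, eval_X, eval_pow]
  ring

end polys

end Vale.Agent.P297.H288
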