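import Vale.Agent.P297.H288.KGeo

/-!
The chords.
-/

set_option linter.unusedSectionVars false
set_option linter.style.haveILetI false
set_option linter.unusedSimpArgs false

namespace Vale.Agent.P297.H288

open Polynomial IntermediateField
open Vale.Agent.P297 Vale.Agent.P297.Gen Vale.Agent.P297.H777

section conic

variable {N : Type} [Field N]

/-- A conic that contains a line is degenerate. -/
theorem det3_zero {a b d e f g X Y X' Y' : N}
    (h1 : a * X ^ 2 + b * X * Y + d * Y ^ 2 + e * X + f * Y + g = 0)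
    (h2 : a * X' ^ 2 + b * X' * Y' + d * Y' ^ 2 + e * X' + f * Y' + g = 0)
    (h3 : a * (X' - X) ^ 2 + b * (X' - X) * (Y' - Y) + d * (Y' - Y) ^ 2 = 0)
    (hne : X ≠ X' ∨ Y ≠ Y') : det3 a b d e f g = 0 := by
  unfold det3
  by_cases hX : X = X'
  · subst hX
    have hY : Y' - Y ≠ 0 := sub_ne_zero.2 (Ne.symm (hne.resolve_left (by simp)))
    have h4 : d = 0 := by
      rw [sub_self] at h3
      have h5 : d * (Y' - Y) ^ 2 = 0 := by linear_combination h3
      exact (mul_eq_zero.1 h5).resolve_right (pow_ne_zero 2 hY)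
    subst h4
    have h5 : b * X + f = 0 := by
      have h6 : (b * X + f) * (Y' - Y) = 0 := by linear_combination h2 - h1
      exact (mul_eq_zero.1 h6).resolve_right hY
    have h6 : f = -(b * X) := by linear_combination h5
    subst h6
    have h7 : g = -(a * X ^ 2 + e * X) := by linear_combination h1
    subst h7
    ring
  · have hX0 : X' - X ≠ 0 := sub_ne_zero.2 (Ne.symm hX)
    obtain ⟨m, hm⟩ : ∃ m, m = (Y' - Y) / (X' - X) := ⟨_, rfl⟩
    have hY : Y' = Y + m * (X' - X) := by
      rw [hm]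
      field_simp
      ring
    subst hY
    have h4 : a + b * m + d * m ^ 2 = 0 := by
      have h5 : (a + b * m + d * m ^ 2) * (X' - X) ^ 2 = 0 := by linear_combination h3
      exact (mul_eq_zero.1 h5).resolve_right (pow_ne_zero 2 hX0)
    have ha : a = -(b * m + d * m ^ 2) := by linear_combination h4
    subst ha
    obtain ⟨k, hk⟩ : ∃ k, k = Y - m * X := ⟨_, rfl⟩
    have hY : Y = m * X + k := by
      rw [hk]
      ring
    subst hY
    have h5 : b * k + 2 * d * m * k + e + f * m = 0 := by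
      have h6 : (b * k + 2 * d * m * k + e + f * m) * (X' - X) = 0 := by
        linear_combination h2 - h1
      exact (mul_eq_zero.1 h6).resolve_right hX0
    have he : e = -(b * k + 2 * d * m * k + f * m) := by linear_combination h5
    subst he
    have hg : g = -(d * k ^ 2 + f * k) := by linear_combination h1
    subst hg
    ring

end conic

section chord

variable {N : Type} [Field N] [Algebra ℂ N] {P : Par} {w w' c l δ : N} {x y : Fin 4 → N}

/-- the point with parameter `t` on the line through `x` and `y` -/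
def ln (x y : Fin 4 → N) (t : N) : Fin 4 → N :=
  ![x 0 + t * (y 0 - x 0), x 1 + t * (y 1 - x 1), x 2 + t * (y 2 - x 2), x 3]

theorem zX_ln (w w' c t : N) (x y : Fin 4 → N) :
    zX w w' c (ln x y t) = zX w w' c x + t * (zX w w' c y - zX w w' c x) := by
  change (x 1 + t * (y 1 - x 1)) + w * c * (x 0 + t * (y 0 - x 0)) +
    w' * c ^ 2 * (x 2 + t * (y 2 - x 2)) = _
  unfold zX
  ring

/-- the first equation on the line through two points over `(c, l)` -/
theorem eA_line (h : Om w w') (hx : InS P c l x) (hy : InS P c l y) (t : N) :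
    3 * eA P (x 0 + t * (y 0 - x 0)) (x 1 + t * (y 1 - x 1)) (x 2 + t * (y 2 - x 2)) (x 3) =
      t * (t - 1) * (kA c * (zX w w' c y - zX w w' c x) * (zX w' w c y - zX w' w c x)) := by
  have h1 := eA_eq P h.one h.two c (ln x y t)
  rw [zX_ln, zX_ln, zX_ln, hx.lin, hy.lin, sub_self, mul_zero, add_zero] at h1
  have h2 := hx.ca h
  have h3 := hy.ca h
  rw [hx.tau]
  refine h1.trans ?_
  unfold qa at h2 h3 ⊢
  linear_combination (1 - t) * h2 + t * h3

/-- the second equation on the line through two points over `(c, l)` -/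
theorem eB_line (h : Om w w') (hx : InS P c l x) (hy : InS P c l y) (t : N) :
    3 * eB P (x 0 + t * (y 0 - x 0)) (x 1 + t * (y 1 - x 1)) (x 2 + t * (y 2 - x 2)) (x 3) =
      t * (t - 1) * (k11 w w' c * (zX w w' c y - zX w w' c x) ^ 2 +
        k12 c l * (zX w w' c y - zX w w' c x) * (zX w' w c y - zX w' w c x) +
        k11 w' w c * (zX w' w c y - zX w' w c x) ^ 2) := by
  have h1 := eB_eq P h.one h.two c (ln x y t)
  rw [zX_ln, zX_ln, zX_ln, hx.lin, hy.lin, sub_self, mul_zero, add_zero] at h1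
  have h2 := hx.cb h
  have h3 := hy.cb h
  rw [hx.tau]
  refine h1.trans ?_
  unfold qb at h2 h3 ⊢
  linear_combination (1 - t) * h2 + t * h3

theorem zX_ne [CharZero N] (h : Om w w') (hc0 : c ≠ 0) (hx : InS P c l x) (hy : InS P c l y)
    (hne : x ≠ y) : zX w w' c x ≠ zX w w' c y ∨ zX w' w c x ≠ zX w' w c y := by
  by_contra hcon
  push Not at hcon
  apply hne
  rw [eq_fromZ h hc0 hx.tau, eq_fromZ h hc0 hy.tau, hx.lin, hy.lin, hcon.1, hcon.2]

/-- the direction of a chord -/
theorem IsChord.quad [CharZero N] (hxy : IsChord P δ x y) (h : Om w w') (hx : InS P c l x)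
    (hy : InS P c l y) :
    k11 w w' c * (zX w w' c y - zX w w' c x) ^ 2 +
        (k12 c l + δ * kA c) * (zX w w' c y - zX w w' c x) * (zX w' w c y - zX w' w c x) +
        k11 w' w c * (zX w' w c y - zX w' w c x) ^ 2 = 0 := by
  have h1 := eA_line h hx hy 2
  have h2 := eB_line h hx hy 2
  have h3 := hxy.line 2
  have n2 : (2 : N) ≠ 0 := by norm_num
  apply mul_left_cancel₀ n2
  linear_combination 3 * h3 - h2 - δ * h1

/-- The determinant vanishes. -/
theorem IsChord.det [CharZero N] (hxy : IsChord P δ x y) (h : Om w w') (hc0 : c ≠ 0)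
    (hx : InS P c l x) (hy : InS P c l y) : dtm P w w' c l δ = 0 := by
  have h1 := hx.ca h
  have h2 := hx.cb h
  have h3 := hy.ca h
  have h4 := hy.cb h
  unfold qa at h1 h3
  unfold qb at h2 h4
  refine det3_zero (X := zX w w' c x) (Y := zX w' w c x) (X' := zX w w' c y) (Y' := zX w' w c y)
    ?_ ?_ (hxy.quad h hx hy) (zX_ne h hc0 hx hy hxy.ne)
  · linear_combination h2 + δ * h1
  · linear_combination h4 + δ * h3

/-- The product of the two coordinates of the direction does not vanish. -/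
theorem dir_ne [CharZero N] (h : Om w w') (hc0 : c ≠ 0)
    (hc : 1 + c ^ 3 ≠ 0) (hx : InS P c l x) (hy : InS P c l y) (hxy : IsChord P δ x y) :
    kA c * (zX w w' c y - zX w w' c x) * (zX w' w c y - zX w' w c x) ≠ 0 := by
  intro h0
  have h1 : ∀ t : N, InS P c l (ln x y t) := by
    intro t
    have h2 := eA_line h hx hy t
    rw [h0, mul_zero] at h2
    have n3 : (3 : N) ≠ 0 := by norm_num
    have h3 := (mul_eq_zero.1 h2).resolve_left n3
    have h4 := hxy.line t
    rw [h3, mul_zero, add_zero] at h4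
    refine ⟨h3, h4, hx.tau, ?_⟩
    rw [zX_ln, hx.lin, hy.lin, sub_self, mul_zero, add_zero]
  have h2 : Function.Injective (fun t : N => ln x y t) := by
    intro s t hst
    have hst' : ln x y s = ln x y t := hst
    by_contra hne
    have hne' : s - t ≠ 0 := sub_ne_zero.2 hne
    have key : ∀ {a b : N}, a + s * (b - a) = a + t * (b - a) → a = b := by
      intro a b hab
      have h3 : (s - t) * (b - a) = 0 := by linear_combination hab
      exact (sub_eq_zero.1 ((mul_eq_zero.1 h3).resolve_left hne')).symm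
    apply hxy.ne
    funext j
    fin_cases j
    · exact key (congrFun hst' 0)
    · exact key (congrFun hst' 1)
    · exact key (congrFun hst' 2)
    · exact hxy.tau
  haveI : Infinite N := by
    haveI : Infinite ℂ := inferInstance
    exact Infinite.of_injective _ (algebraMap ℂ N).injective
  have h3 : (Set.range (fun t : N => ln x y t)).Infinite := Set.infinite_range_of_injective h2
  apply h3
  refine Set.Finite.subset (finite_inS (P := P) h hc0 hc l) ?_
  rintro _ ⟨t, rfl⟩
  exact h1 t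

/-- Two points over `(c, l)` lie on a chord. -/
theorem exists_chord [CharZero N] (h : Om w w') (hx : InS P c l x) (hy : InS P c l y) (hne : x ≠ y)
    (hd : kA c * (zX w w' c y - zX w w' c x) * (zX w' w c y - zX w' w c x) ≠ 0) :
    ∃ δ, IsChord P δ x y := by
  refine ⟨-(k11 w w' c * (zX w w' c y - zX w w' c x) ^ 2 +
        k12 c l * (zX w w' c y - zX w w' c x) * (zX w' w c y - zX w' w c x) +
        k11 w' w c * (zX w' w c y - zX w' w c x) ^ 2) /
      (kA c * (zX w w' c y - zX w w' c x) * (zX w' w c y - zX w' w c x)), hne,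
      hx.tau.trans hy.tau.symm, fun t => ?_⟩
  have h1 := eA_line h hx hy t
  have h2 := eB_line h hx hy t
  have n3 : (3 : N) ≠ 0 := by norm_num
  obtain ⟨α, hα⟩ : ∃ α, α = kA c * (zX w w' c y - zX w w' c x) * (zX w' w c y - zX w' w c x) :=
    ⟨_, rfl⟩
  obtain ⟨β, hβ⟩ : ∃ β, β = k11 w w' c * (zX w w' c y - zX w w' c x) ^ 2 +
        k12 c l * (zX w w' c y - zX w w' c x) * (zX w' w c y - zX w' w c x) +
        k11 w' w c * (zX w' w c y - zX w' w c x) ^ 2 := ⟨_, rfl⟩
  rw [← hα] at h1 hd ⊢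
  rw [← hβ] at h2 ⊢
  apply mul_left_cancel₀ n3
  have h3 : -β / α * α = -β := by
    field_simp
  rw [mul_zero, mul_add, h2]
  linear_combination (-β / α) * h1 + t * (t - 1) * h3

end chord

section closed

variable {N : Type} [Field N] [Algebra ℂ N] {P : Par} {w w' c l δ : N} {x y : Fin 4 → N}
  {M : IntermediateField ℂ N}

/-- the value of `δ` is algebraic over `ℂ(c, l)` -/
theorem IsChord.mem_δ [CharZero N] (hM : ∀ u, IsAlgebraic M u → u ∈ M) (h : Om w w') (hc0 : c ≠ 0)
    (hc : 1 + c ^ 3 ≠ 0) (hw : w ∈ M) (hcM : c ∈ M) (hl : l ∈ M) (hx : InS P c l x)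
    (hy : InS P c l y) (hxy : IsChord P δ x y) : δ ∈ M := by
  have hw' := h.mem hw
  have h1 := dir_ne h hc0 hc hx hy hxy
  have h2 := hxy.quad h hx hy
  have m1 := hx.zX_mem hM h hc hw hcM hl
  have m2 := hx.zX_mem hM h.symm hc hw' hcM hl
  have m3 := hy.zX_mem hM h hc hw hcM hl
  have m4 := hy.zX_mem hM h.symm hc hw' hcM hl
  have mA : kA c ∈ M := by
    have e := map_kA M.val (⟨c, hcM⟩ : M)
    rw [show kA c = _ from e.symm]
    exact Subtype.property _
  have m11 : k11 w w' c ∈ M := by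
    have e := map_k11 M.val (⟨w, hw⟩ : M) ⟨w', hw'⟩ ⟨c, hcM⟩
    rw [show k11 w w' c = _ from e.symm]
    exact Subtype.property _
  have m11' : k11 w' w c ∈ M := by
    have e := map_k11 M.val (⟨w', hw'⟩ : M) ⟨w, hw⟩ ⟨c, hcM⟩
    rw [show k11 w' w c = _ from e.symm]
    exact Subtype.property _
  have m12 : k12 c l ∈ M := by
    have e := map_k12 M.val (⟨c, hcM⟩ : M) ⟨l, hl⟩
    rw [show k12 c l = _ from e.symm]
    exact Subtype.property _
  have h3 : δ = -(k11 w w' c * (zX w w' c y - zX w w' c x) ^ 2 +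
        k12 c l * (zX w w' c y - zX w w' c x) * (zX w' w c y - zX w' w c x) +
        k11 w' w c * (zX w' w c y - zX w' w c x) ^ 2) /
      (kA c * (zX w w' c y - zX w w' c x) * (zX w' w c y - zX w' w c x)) := by
    rw [eq_div_iff h1]
    linear_combination h2
  rw [h3]
  exact div_mem (neg_mem (add_mem (add_mem (mul_mem m11 (pow_mem (sub_mem m3 m1) 2))
    (mul_mem (mul_mem m12 (sub_mem m3 m1)) (sub_mem m4 m2)))
    (mul_mem m11' (pow_mem (sub_mem m4 m2) 2))))
    (mul_mem (mul_mem mA (sub_mem m3 m1)) (sub_mem m4 m2))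

/-- the value of `l` is algebraic over `ℂ(c, δ)` -/
theorem IsChord.mem_l [CharZero N] (hM : ∀ u, IsAlgebraic M u → u ∈ M) (h : Om w w') (hc0 : c ≠ 0)
    (hc : 1 + c ^ 3 ≠ 0) (hw : w ∈ M) (hcM : c ∈ M) (hδ : δ ∈ M) (hx : InS P c l x)
    (hy : InS P c l y) (hxy : IsChord P δ x y) : l ∈ M := by
  haveI : CharZero M := charZero_of_injective_algebraMap (algebraMap ℂ M).injective
  have hw' := h.mem hw
  have n9 : (9 : M) ≠ 0 := by norm_num
  refine hM _ ((ht_dtm P (⟨w, hw⟩ : M) ⟨w', hw'⟩ ⟨c, hcM⟩ ⟨δ, hδ⟩).isAlgebraic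
    (neg_ne_zero.2 (mul_ne_zero n9 (neg_ne_zero.2 (phi_ne (sub_ne hcM hc))))) ?_)
  change evl M l _ = 0
  rw [map_dtm, evl_C, evl_C, evl_C, evl_C, evl_X]
  exact hxy.det h hc0 hx hy

/-- The chords of the member `δ` in the planes `z₀ = l`, `τ = c ^ 3`. -/
def chords (P : Par) (δ c : N) : Set ((Fin 4 → N) × (Fin 4 → N)) :=
  {p | IsChord P δ p.1 p.2 ∧ ∃ l, InS P c l p.1 ∧ InS P c l p.2}

theorem finite_chords [CharZero N] (h : Om w w') (hc0 : c ≠ 0) (hc : 1 + c ^ 3 ≠ 0) (δ : N) :
    (chords P δ c).Finite := by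
  classical
  have n9 : (9 : N) ≠ 0 := by norm_num
  have h1 := ht_dtm P w w' c δ
  have h2 : dtm P (C w) (C w') (C c) X (C δ) ≠ 0 :=
    h1.ne_zero (neg_ne_zero.2 (mul_ne_zero n9 (neg_ne_zero.2 (phi_ne hc))))
  have h3 := Polynomial.finite_setOfPred_isRoot h2
  refine Set.Finite.subset (h3.biUnion (t := fun l => {y | InS P c l y} ×ˢ {y | InS P c l y})
    (fun l _ => (finite_inS h hc0 hc l).prod (finite_inS h hc0 hc l))) ?_
  rintro ⟨x, y⟩ ⟨hxy, l, hx, hy⟩
  refine Set.mem_biUnion (x := l) ?_ ⟨hx, hy⟩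
  have h4 := hxy.det h hc0 hx hy
  let f : N[X] →ₐ[ℂ] N := (aeval l : N[X] →ₐ[N] N).restrictScalars ℂ
  have e1 : ∀ a : N, f (C a) = a := by
    intro a
    change aeval l (C a) = _
    rw [aeval_C]
    rfl
  have e2 : f X = l := by
    change aeval l X = _
    rw [aeval_X]
  have h5 := map_dtm f P (C w) (C w') (C c) X (C δ)
  rw [e1, e1, e1, e1, e2, h4] at h5
  rw [Set.mem_ofPred_eq, IsRoot]
  exact h5

end closed

end Vale.Agent.P297.H288
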