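import Vale.Agent.P297.H288.KAlg

/-!
The leading coefficients of the discriminant and of the determinant.
-/

set_option linter.unusedSectionVars false
set_option linter.style.haveILetI false
set_option linter.unusedSimpArgs false

namespace Vale.Agent.P297.H288

open Polynomial

section gen

variable {F : Type*} [CommRing F] {A B C' E K k12' K' k1' k2' k0' : F[X]}
  {α b1 c1 e1 κ κ' κ1 κ2 a0 : F}

theorem ht_lin (a b : F) : HT (C a * X + C b) 1 a :=
  ((((HT.C a).mul HT.X).cast (zero_add 1)).add ((HT.C b).up zero_lt_one)).val (by ring)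

theorem ht_quad (a b c : F) : HT (C a * X ^ 2 + C b * X + C c) 2 a :=
  (((((HT.C a).mul (HT.X.pow 2)).cast (by norm_num)).add
    (((HT.C b).mul HT.X).up (by norm_num))).add ((HT.C c).up zero_lt_two)).val (by ring)

theorem ht_r4 (hA : HT A 0 α) (hK : HT K 0 κ) : HT (r4 A K) 0 (κ * α ^ 2) :=
  (hK.mul (hA.pow 2)).cast (by norm_num)

theorem ht_r3 (hA : HT A 0 α) (hB : HT B 1 b1) (hC : HT C' 1 c1) (hK : HT K 0 κ)
    (h12 : HT k12' 1 3) (h1 : HT k1' 1 κ1) : HT (r3 A B C' K k12' k1') 2 (-(3 * b1 * α)) :=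
  ((((((HT.num 2).mul hK).mul hA).mul hC).up (by norm_num)).sub
    (((h12.mul hB).mul hA).cast (by norm_num)) |>.add
    ((h1.mul (hA.pow 2)).up (by norm_num))).val (by ring)

theorem ht_r2 (hA : HT A 0 α) (hB : HT B 1 b1) (hC : HT C' 1 c1) (hE : HT E 1 e1) (hK : HT K 0 κ)
    (h12 : HT k12' 1 3) (hK' : HT K' 0 κ') (h1 : HT k1' 1 κ1) (h2 : HT k2' 1 κ2)
    (h0 : HT k0' 2 a0) : HT (r2 A B C' E K k12' K' k1' k2' k0') 3 (-(3 * b1 * c1)) :=
  (((((((hK.mul (hC.pow 2)).up (by norm_num)).sub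
    ((h12.mul ((hB.mul hC).add ((hE.mul hA).up (by norm_num)))).cast (by norm_num))).add
    ((hK'.mul (hB.pow 2)).up (by norm_num))).add
    (((((HT.num 2).mul h1).mul hA).mul hC).up (by norm_num))).sub
    (((h2.mul hB).mul hA).up (by norm_num))).add
    ((h0.mul (hA.pow 2)).up (by norm_num))).val (by ring)

theorem ht_r1 (hA : HT A 0 α) (hB : HT B 1 b1) (hC : HT C' 1 c1) (hE : HT E 1 e1)
    (h12 : HT k12' 1 3) (hK' : HT K' 0 κ') (h1 : HT k1' 1 κ1) (h2 : HT k2' 1 κ2)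
    (h0 : HT k0' 2 a0) : ∃ a, HT (r1 A B C' E k12' K' k1' k2' k0') 3 a :=
  ⟨_, ((((((((HT.num 2).mul hK').mul hB).mul hE).up (by norm_num)).sub
    (((h12.mul hE).mul hC).cast (by norm_num))).add
    ((h1.mul (hC.pow 2)).cast (by norm_num))).sub
    ((h2.mul ((hB.mul hC).add ((hE.mul hA).up (by norm_num)))).cast (by norm_num))).add
    (((((HT.num 2).mul h0).mul hA).mul hC).cast (by norm_num))⟩

theorem ht_r0 (hC : HT C' 1 c1) (hE : HT E 1 e1) (hK' : HT K' 0 κ') (h2 : HT k2' 1 κ2)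
    (h0 : HT k0' 2 a0) : HT (r0 C' E K' k2' k0') 4 (a0 * c1 ^ 2) :=
  ((((hK'.mul (hE.pow 2)).up (by norm_num)).sub (((h2.mul hE).mul hC).up (by norm_num))).add
    ((h0.mul (hC.pow 2)).cast (by norm_num))).val (by ring)

theorem ht_disc {a b c d e : F[X]} {a1 b1 c1 d1 e1 : F} (ha : HT a 0 a1) (hb : HT b 2 b1)
    (hc : HT c 3 c1) (hd : HT d 3 d1) (he : HT e 4 e1) :
    HT (disc4 a b c d e) 17 (-(4 * b1 ^ 2 * c1 ^ 3 * e1)) := by
  have t1 : HT (256 * a ^ 3 * e ^ 3) 17 0 :=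
    (((HT.num 256).mul (ha.pow 3)).mul (he.pow 3)).up (by norm_num)
  have t2 : HT (192 * a ^ 2 * b * d * e ^ 2) 17 0 :=
    (((((HT.num 192).mul (ha.pow 2)).mul hb).mul hd).mul (he.pow 2)).up (by norm_num)
  have t3 : HT (128 * a ^ 2 * c ^ 2 * e ^ 2) 17 0 :=
    ((((HT.num 128).mul (ha.pow 2)).mul (hc.pow 2)).mul (he.pow 2)).up (by norm_num)
  have t4 : HT (144 * a ^ 2 * c * d ^ 2 * e) 17 0 :=
    (((((HT.num 144).mul (ha.pow 2)).mul hc).mul (hd.pow 2)).mul he).up (by norm_num)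
  have t5 : HT (27 * a ^ 2 * d ^ 4) 17 0 :=
    (((HT.num 27).mul (ha.pow 2)).mul (hd.pow 4)).up (by norm_num)
  have t6 : HT (144 * a * b ^ 2 * c * e ^ 2) 17 0 :=
    (((((HT.num 144).mul ha).mul (hb.pow 2)).mul hc).mul (he.pow 2)).up (by norm_num)
  have t7 : HT (6 * a * b ^ 2 * d ^ 2 * e) 17 0 :=
    (((((HT.num 6).mul ha).mul (hb.pow 2)).mul (hd.pow 2)).mul he).up (by norm_num)
  have t8 : HT (80 * a * b * c ^ 2 * d * e) 17 0 :=
    ((((((HT.num 80).mul ha).mul hb).mul (hc.pow 2)).mul hd).mul he).up (by norm_num)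
  have t9 : HT (18 * a * b * c * d ^ 3) 17 0 :=
    (((((HT.num 18).mul ha).mul hb).mul hc).mul (hd.pow 3)).up (by norm_num)
  have t10 : HT (16 * a * c ^ 4 * e) 17 0 :=
    ((((HT.num 16).mul ha).mul (hc.pow 4)).mul he).up (by norm_num)
  have t11 : HT (4 * a * c ^ 3 * d ^ 2) 17 0 :=
    ((((HT.num 4).mul ha).mul (hc.pow 3)).mul (hd.pow 2)).up (by norm_num)
  have t12 : HT (27 * b ^ 4 * e ^ 2) 17 0 :=
    (((HT.num 27).mul (hb.pow 4)).mul (he.pow 2)).up (by norm_num)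
  have t13 : HT (18 * b ^ 3 * c * d * e) 17 0 :=
    (((((HT.num 18).mul (hb.pow 3)).mul hc).mul hd).mul he).up (by norm_num)
  have t14 : HT (4 * b ^ 3 * d ^ 3) 17 0 :=
    (((HT.num 4).mul (hb.pow 3)).mul (hd.pow 3)).up (by norm_num)
  have t15 : HT (4 * b ^ 2 * c ^ 3 * e) 17 (4 * b1 ^ 2 * c1 ^ 3 * e1) :=
    ((((HT.num 4).mul (hb.pow 2)).mul (hc.pow 3)).mul he).cast (by norm_num)
  have t16 : HT (b ^ 2 * c ^ 2 * d ^ 2) 17 0 :=
    (((hb.pow 2).mul (hc.pow 2)).mul (hd.pow 2)).up (by norm_num)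
  exact ((((((((((((((((t1.sub t2).sub t3).add t4).sub t5).add t6).sub t7).sub t8).add t9).add
    t10).sub t11).sub t12).add t13).sub t14).sub t15).add t16)).val (by ring)

theorem ht_det {a b d e f g : F[X]} {a1 d1 e1 f1 g1 : F} (ha : HT a 0 a1) (hb : HT b 1 3)
    (hd : HT d 0 d1) (he : HT e 1 e1) (hf : HT f 1 f1) (hg : HT g 2 g1) :
    HT (det3 a b d e f g) 4 (-(9 * g1)) :=
  (((((((((HT.num 4).mul ha).mul hd).mul hg).up (by norm_num)).add
    (((hb.mul he).mul hf).up (by norm_num))).sub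
    ((ha.mul (hf.pow 2)).up (by norm_num))).sub
    ((hd.mul (he.pow 2)).up (by norm_num))).sub
    ((hg.mul (hb.pow 2)).cast (by norm_num))).val (by ring)

end gen

section lines

variable {F : Type*} [CommRing F] [Algebra ℂ F] (P : Par) (w w' c : F)

theorem kA_poly : kA (C c) = C (kA c) := by
  unfold kA
  simp only [map_add, map_sub, map_mul, map_pow, map_one, map_ofNat]

theorem k11_poly : k11 (C w) (C w') (C c) = C (k11 w w' c) := by
  unfold k11
  simp only [map_add, map_sub, map_mul, map_pow, map_one, map_neg]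

theorem kB_poly : kB P (C w) (C w') (C c) X = C (3 * (1 - w' * c + w * c ^ 2)) * X +
    C (-(9 * c ^ 2 * w') - (1 + c ^ 3) *
      (algebraMap ℂ F (P.z 2) * c * w + algebraMap ℂ F (P.z 3))) := by
  unfold kB
  simp only [Polynomial.algebraMap_apply, map_add, map_sub, map_mul, map_pow, map_one, map_neg,
    map_ofNat]
  ring

theorem kE_poly : kE P (C c) X = C (-(9 * c ^ 2) - (1 + c ^ 3) *
    (algebraMap ℂ F (P.z 2) * c + algebraMap ℂ F (P.z 3))) * X + C (-((1 + c ^ 3) *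
    (3 * algebraMap ℂ F (P.z 0) * c ^ 3 + 3 * algebraMap ℂ F (P.z 1)))) := by
  unfold kE
  simp only [Polynomial.algebraMap_apply, map_add, map_sub, map_mul, map_pow, map_one, map_neg,
    map_ofNat]
  ring

theorem k12_poly : k12 (C c) X = C 3 * X + C ((1 + c) ^ 2) := by
  unfold k12
  simp only [map_add, map_pow, map_one, map_ofNat]

theorem k1_poly : k1 P (C w) (C w') (C c) X = C ((1 + w' * c) ^ 2) * X + C (-((1 + c ^ 3) *
    (algebraMap ℂ F (P.t 2) * c * w + algebraMap ℂ F (P.t 3)))) := by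
  unfold k1
  simp only [Polynomial.algebraMap_apply, map_add, map_sub, map_mul, map_pow, map_one, map_neg,
    map_ofNat]
  ring

theorem k0_poly : k0 P (C c) X = C (-(1 - c + c ^ 2)) * X ^ 2 + C (-((1 + c ^ 3) *
    (algebraMap ℂ F (P.t 2) * c + algebraMap ℂ F (P.t 3)))) * X + C (-((1 + c ^ 3) *
    (3 * algebraMap ℂ F (P.t 0) * c ^ 3 + 3 * algebraMap ℂ F (P.t 1)))) := by
  unfold k0
  simp only [Polynomial.algebraMap_apply, map_add, map_sub, map_mul, map_pow, map_one, map_neg,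
    map_ofNat]
  ring

theorem ht_kA : HT (kA (C c)) 0 (kA c) := by
  rw [kA_poly]
  exact HT.C _

theorem ht_k11 : HT (k11 (C w) (C w') (C c)) 0 (k11 w w' c) := by
  rw [k11_poly]
  exact HT.C _

theorem ht_kB : HT (kB P (C w) (C w') (C c) X) 1 (3 * (1 - w' * c + w * c ^ 2)) := by
  rw [kB_poly]
  exact ht_lin _ _

theorem ht_kE : ∃ e, HT (kE P (C c) X) 1 e := by
  rw [kE_poly]
  exact ⟨_, ht_lin _ _⟩

theorem ht_k12 : HT (k12 (C c) (X : F[X])) 1 3 := by
  rw [k12_poly]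
  exact ht_lin _ _

theorem ht_k1 : ∃ e, HT (k1 P (C w) (C w') (C c) X) 1 e := by
  rw [k1_poly]
  exact ⟨_, ht_lin _ _⟩

theorem ht_k0 : HT (k0 P (C c) X) 2 (-(1 - c + c ^ 2)) := by
  rw [k0_poly]
  exact ht_quad _ _ _

/-- the coefficients of the quartic -/
def q4 (w w' c : F) : F := r4 (kA c) (k11 w w' c)

def q3 (w w' c l : F) : F :=
  r3 (kA c) (kB P w w' c l) (kB P w' w c l) (k11 w w' c) (k12 c l) (k1 P w w' c l)

def q2 (w w' c l : F) : F :=
  r2 (kA c) (kB P w w' c l) (kB P w' w c l) (kE P c l) (k11 w w' c) (k12 c l) (k11 w' w c)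
    (k1 P w w' c l) (k1 P w' w c l) (k0 P c l)

def q1 (w w' c l : F) : F :=
  r1 (kA c) (kB P w w' c l) (kB P w' w c l) (kE P c l) (k12 c l) (k11 w' w c)
    (k1 P w w' c l) (k1 P w' w c l) (k0 P c l)

def q0 (w w' c l : F) : F :=
  r0 (kB P w' w c l) (kE P c l) (k11 w' w c) (k1 P w' w c l) (k0 P c l)

/-- the discriminant as a function of `l` -/
def dsc (w w' c l : F) : F :=
  disc4 (q4 w w' c) (q3 P w w' c l) (q2 P w w' c l) (q1 P w w' c l) (q0 P w w' c l)

/-- the determinant of the member `δ` on the plane `z₀ = l` -/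
def dtm (w w' c l δ : F) : F :=
  det3 (k11 w w' c) (k12 c l + δ * kA c) (k11 w' w c) (k1 P w w' c l + δ * kB P w w' c l)
    (k1 P w' w c l + δ * kB P w' w c l) (k0 P c l + δ * kE P c l)

theorem ht_dsc : HT (dsc P (C w) (C w') (C c) X) 17
    (-(4 * (-(3 * (3 * (1 - w' * c + w * c ^ 2)) * kA c)) ^ 2 *
      (-(3 * (3 * (1 - w' * c + w * c ^ 2)) * (3 * (1 - w * c + w' * c ^ 2)))) ^ 3 *
      (-(1 - c + c ^ 2) * (3 * (1 - w * c + w' * c ^ 2)) ^ 2))) := by
  obtain ⟨e1, hE⟩ := ht_kE P c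
  obtain ⟨κ1, h1⟩ := ht_k1 P w w' c
  obtain ⟨κ2, h2⟩ := ht_k1 P w' w c
  obtain ⟨d1, hd⟩ := ht_r1 (ht_kA c) (ht_kB P w w' c) (ht_kB P w' w c) hE (ht_k12 c)
    (ht_k11 w' w c) h1 h2 (ht_k0 P c)
  exact ht_disc (ht_r4 (ht_kA c) (ht_k11 w w' c))
    (ht_r3 (ht_kA c) (ht_kB P w w' c) (ht_kB P w' w c) (ht_k11 w w' c) (ht_k12 c) h1)
    (ht_r2 (ht_kA c) (ht_kB P w w' c) (ht_kB P w' w c) hE (ht_k11 w w' c) (ht_k12 c)
      (ht_k11 w' w c) h1 h2 (ht_k0 P c)) hd
    (ht_r0 (ht_kB P w' w c) hE (ht_k11 w' w c) h2 (ht_k0 P c))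

theorem ht_dtm (δ : F) : HT (dtm P (C w) (C w') (C c) X (C δ)) 4 (-(9 * -(1 - c + c ^ 2))) := by
  obtain ⟨e1, hE⟩ := ht_kE P c
  obtain ⟨κ1, h1⟩ := ht_k1 P w w' c
  obtain ⟨κ2, h2⟩ := ht_k1 P w' w c
  exact ht_det (ht_k11 w w' c)
    (((ht_k12 c).add (((HT.C δ).mul (ht_kA c)).up (by norm_num))).val (by ring))
    (ht_k11 w' w c)
    (h1.add (((HT.C δ).mul (ht_kB P w w' c)).cast (by norm_num)))
    (h2.add (((HT.C δ).mul (ht_kB P w' w c)).cast (by norm_num)))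
    (((ht_k0 P c).add (((HT.C δ).mul hE).up (by norm_num))).val (by ring))

theorem ht_bc : HT (kB P (C w) (C w') (C c) X * kB P (C w') (C w) (C c) X -
    kA (C c) * kE P (C c) X) 2 (3 * (1 - w' * c + w * c ^ 2) * (3 * (1 - w * c + w' * c ^ 2))) := by
  obtain ⟨e1, hE⟩ := ht_kE P c
  exact (((ht_kB P w w' c).mul (ht_kB P w' w c)).sub
    (((ht_kA c).mul hE).up (by norm_num))).val (by ring)

end lines

section map

variable {R R' : Type*} [CommRing R] [Algebra ℂ R] [CommRing R'] [Algebra ℂ R'] (f : R →ₐ[ℂ] R')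
  (P : Par) (w w' c l δ : R)

theorem map_kA : f (kA c) = kA (f c) := by
  simp only [kA, map_add, map_sub, map_mul, map_pow, map_one, map_ofNat]

theorem map_kB : f (kB P w w' c l) = kB P (f w) (f w') (f c) (f l) := by
  simp only [kB, map_add, map_sub, map_mul, map_pow, map_one, map_ofNat, AlgHom.commutes]

theorem map_kE : f (kE P c l) = kE P (f c) (f l) := by
  simp only [kE, map_add, map_sub, map_mul, map_pow, map_one, map_ofNat, map_neg,
    AlgHom.commutes]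

theorem map_k11 : f (k11 w w' c) = k11 (f w) (f w') (f c) := by
  simp only [k11, map_add, map_sub, map_mul, map_pow, map_one, map_neg]

theorem map_k12 : f (k12 c l) = k12 (f c) (f l) := by
  simp only [k12, map_add, map_mul, map_pow, map_one, map_ofNat]

theorem map_k1 : f (k1 P w w' c l) = k1 P (f w) (f w') (f c) (f l) := by
  simp only [k1, map_add, map_sub, map_mul, map_pow, map_one, map_ofNat, AlgHom.commutes]

theorem map_k0 : f (k0 P c l) = k0 P (f c) (f l) := by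
  simp only [k0, map_add, map_sub, map_mul, map_pow, map_one, map_ofNat, map_neg,
    AlgHom.commutes]

theorem map_dsc : f (dsc P w w' c l) = dsc P (f w) (f w') (f c) (f l) := by
  simp only [dsc, disc4, q4, q3, q2, q1, q0, r4, r3, r2, r1, r0, map_add, map_sub, map_mul,
    map_pow, map_ofNat, map_kA, map_kB, map_kE, map_k11, map_k12, map_k1, map_k0]

theorem map_dtm : f (dtm P w w' c l δ) = dtm P (f w) (f w') (f c) (f l) (f δ) := by
  simp only [dtm, det3, map_add, map_sub, map_mul,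
    map_pow, map_ofNat, map_kA, map_kB, map_kE, map_k11, map_k12, map_k1, map_k0]

end map

end Vale.Agent.P297.H288
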