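import Vale.Agent.P297.H288.KDisc
import Vale.Agent.P297.H521.Param

/-!
The points of the surface on the planes `z₀ = l`, and the chords.
-/

set_option linter.unusedSectionVars false
set_option linter.style.haveILetI false
set_option linter.unusedSimpArgs false

namespace Vale.Agent.P297.H288

open Polynomial IntermediateField
open Vale.Agent.P297 Vale.Agent.P297.Gen Vale.Agent.P297.H777

/-- The points of the surface over `(c, l)`. -/
structure InS {N : Type} [Field N] [Algebra ℂ N] (P : Par) (c l : N) (y : Fin 4 → N) : Prop where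
  zA : eA P (y 0) (y 1) (y 2) (y 3) = 0
  zB : eB P (y 0) (y 1) (y 2) (y 3) = 0
  tau : y 3 = c ^ 3
  lin : zX 1 1 c y = l

/-- `x` and `y` are different points in the same plane `τ = constant`, and the line through them is
contained in the member `δ` of the pencil of cubic surfaces. -/
structure IsChord {N : Type} [Field N] [Algebra ℂ N] (P : Par) (δ : N) (x y : Fin 4 → N) :
    Prop where
  ne : x ≠ y
  tau : x 3 = y 3
  line : ∀ t : N, eB P (x 0 + t * (y 0 - x 0)) (x 1 + t * (y 1 - x 1)) (x 2 + t * (y 2 - x 2)) (x 3)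
    + δ * eA P (x 0 + t * (y 0 - x 0)) (x 1 + t * (y 1 - x 1)) (x 2 + t * (y 2 - x 2)) (x 3) = 0

section closed

variable {N : Type} [Field N] [Algebra ℂ N]

theorem HT.isAlgebraic {M : IntermediateField ℂ N} {p : M[X]} {n : ℕ} {a : M} (h : HT p n a)
    (ha : a ≠ 0) {x : N} (hx : aeval x p = 0) : IsAlgebraic M x :=
  ⟨p, h.ne_zero ha, hx⟩

/-- a root of a quartic -/
theorem mem_of_quartic {M : IntermediateField ℂ N} (hM : ∀ u, IsAlgebraic M u → u ∈ M)
    {a b c d e x : N} (ha : a ∈ M) (hb : b ∈ M) (hc : c ∈ M) (hd : d ∈ M) (he : e ∈ M) (h0 : a ≠ 0)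
    (h : a * x ^ 4 + b * x ^ 3 + c * x ^ 2 + d * x + e = 0) : x ∈ M := by
  apply hM
  have h1 : HT (C (⟨a, ha⟩ : M) * X ^ 4 + C ⟨b, hb⟩ * X ^ 3 + C ⟨c, hc⟩ * X ^ 2 + C ⟨d, hd⟩ * X +
      C ⟨e, he⟩) 4 (⟨a, ha⟩ : M) :=
    (((((((HT.C _).mul (HT.X.pow 4)).cast (by norm_num)).add
      (((HT.C _).mul (HT.X.pow 3)).up (by norm_num))).add
      (((HT.C _).mul (HT.X.pow 2)).up (by norm_num))).add
      (((HT.C _).mul HT.X).up (by norm_num))).add ((HT.C _).up (by norm_num))).val (by ring)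
  refine h1.isAlgebraic (fun h => h0 (congrArg Subtype.val h)) ?_
  simp only [map_add, map_mul, map_pow, aeval_C, aeval_X]
  exact h

theorem alg_mem (M : IntermediateField ℂ N) (z : ℂ) : algebraMap ℂ N z ∈ M := M.algebraMap_mem z

end closed

section alg

variable {N : Type} [Field N] [Algebra ℂ N] {P : Par} {w w' c l δ : N} {x y : Fin 4 → N}

/-- two primitive cube roots of one -/
structure Om {N : Type} [Field N] (w w' : N) : Prop where
  one : w' = -1 - w
  two : w ^ 2 + w + 1 = 0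

namespace Om

variable {N : Type} [Field N] {w w' : N} (h : Om w w')

include h

theorem symm : Om w' w := by
  have h1 := h.one
  have h2 := h.two
  constructor
  · rw [h1]
    ring
  · rw [h1]
    linear_combination h2

theorem mul : w * w' = 1 := by
  rw [h.one]
  linear_combination -h.two

theorem sq : w ^ 2 = w' := by
  rw [h.one]
  linear_combination h.two

theorem cube : w ^ 3 = 1 := by
  linear_combination (w - 1) * h.two

end Om

theorem phi_ne (hc : 1 + c ^ 3 ≠ 0) : 1 - c + c ^ 2 ≠ 0 := by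
  intro h
  apply hc
  linear_combination (1 + c) * h

theorem phi_ne' (h : Om w w') (hc : 1 + c ^ 3 ≠ 0) : 1 - w * c + w' * c ^ 2 ≠ 0 := by
  intro h0
  apply hc
  have h1 := h.mul
  have h2 := h.cube
  have h3 := h.sq
  have h4 : (1 + w * c) * (1 - w * c + w' * c ^ 2) = 1 + c ^ 3 := by
    have h5 : w' * w = 1 := by rw [mul_comm]; exact h1
    rw [← h3] at h5 ⊢
    linear_combination c ^ 3 * h5
  rw [← h4, h0, mul_zero]

/-- the coordinates from `z₀`, `z₁`, `z₂` -/
def fromZ (w w' c l X Y : N) : Fin 4 → N :=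
  ![(l + w' * X + w * Y) / (3 * c), (l + X + Y) / 3, (l + w * X + w' * Y) / (3 * c ^ 2), c ^ 3]

theorem zX_one [CharZero N] (h : Om w w') (hc : c ≠ 0) (l X Y : N) :
    zX 1 1 c (fromZ w w' c l X Y) = l := by
  have h1 := h.one
  subst h1
  simp only [zX, fromZ, Matrix.cons_val_zero, Matrix.cons_val_one, Matrix.cons_val]
  field_simp
  ring

theorem zX_two [CharZero N] (h : Om w w') (hc : c ≠ 0) (l X Y : N) :
    zX w w' c (fromZ w w' c l X Y) = X := by
  have h1 := h.one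
  have h2 := h.two
  subst h1
  simp only [zX, fromZ, Matrix.cons_val_zero, Matrix.cons_val_one, Matrix.cons_val]
  field_simp
  linear_combination (2 * Y - 2 * X) * h2

theorem zX_three [CharZero N] (h : Om w w') (hc : c ≠ 0) (l X Y : N) :
    zX w' w c (fromZ w w' c l X Y) = Y := by
  have h1 := h.one
  have h2 := h.two
  subst h1
  simp only [zX, fromZ, Matrix.cons_val_zero, Matrix.cons_val_one, Matrix.cons_val]
  field_simp
  linear_combination (2 * X - 2 * Y) * h2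

theorem eq_fromZ [CharZero N] (h : Om w w') (hc : c ≠ 0) {y : Fin 4 → N} (hy : y 3 = c ^ 3) :
    y = fromZ w w' c (zX 1 1 c y) (zX w w' c y) (zX w' w c y) := by
  have h1 := h.one
  have h2 := h.two
  subst h1
  funext j
  fin_cases j
  · simp only [zX, fromZ, Matrix.cons_val_zero, Matrix.cons_val_one, Matrix.cons_val,
      Fin.zero_eta, Fin.isValue]
    field_simp
    linear_combination (2 * y 0 * c - 2 * y 2 * c ^ 2) * h2
  · simp only [zX, fromZ, Matrix.cons_val_zero, Matrix.cons_val_one, Matrix.cons_val,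
      Fin.mk_one, Fin.isValue]
    field_simp
    ring
  · simp only [zX, fromZ, Matrix.cons_val_zero, Matrix.cons_val_one, Matrix.cons_val,
      Fin.reduceFinMk, Fin.isValue]
    field_simp
    linear_combination (-2 * y 0 * c + 2 * y 2 * c ^ 2) * h2
  · exact hy

end alg

/-! ### The points over `(c, l)` -/

section map

variable {R R' : Type*} [CommRing R] [Algebra ℂ R] [CommRing R'] [Algebra ℂ R'] (f : R →ₐ[ℂ] R')
  (P : Par) (w w' c l : R)

theorem map_q4 : f (q4 w w' c) = q4 (f w) (f w') (f c) := by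
  simp only [q4, r4, map_mul, map_pow, map_kA, map_k11]

theorem map_q3 : f (q3 P w w' c l) = q3 P (f w) (f w') (f c) (f l) := by
  simp only [q3, r3, map_add, map_sub, map_mul,
    map_pow, map_ofNat, map_kA, map_kB, map_kE, map_k11, map_k12, map_k1, map_k0]

theorem map_q2 : f (q2 P w w' c l) = q2 P (f w) (f w') (f c) (f l) := by
  simp only [q2, r2, map_add, map_sub, map_mul,
    map_pow, map_ofNat, map_kA, map_kB, map_kE, map_k11, map_k12, map_k1, map_k0]

theorem map_q1 : f (q1 P w w' c l) = q1 P (f w) (f w') (f c) (f l) := by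
  simp only [q1, r1, map_add, map_sub, map_mul,
    map_pow, map_ofNat, map_kA, map_kB, map_kE, map_k11, map_k12, map_k1, map_k0]

theorem map_q0 : f (q0 P w w' c l) = q0 P (f w) (f w') (f c) (f l) := by
  simp only [q0, r0, map_add, map_sub, map_mul,
    map_pow, map_ofNat, map_kA, map_kB, map_kE, map_k11, map_k12, map_k1, map_k0]

end map

section points

variable {N : Type} [Field N] [Algebra ℂ N] {P : Par} {w w' c l δ : N} {x y : Fin 4 → N}

theorem InS.ca (hy : InS P c l y) (h : Om w w') :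
    qa P w w' c l (zX w w' c y) (zX w' w c y) = 0 := by
  have h1 := eA_eq P h.one h.two c y
  rw [← hy.tau, hy.zA, mul_zero, hy.lin] at h1
  exact h1.symm

theorem InS.cb (hy : InS P c l y) (h : Om w w') :
    qb P w w' c l (zX w w' c y) (zX w' w c y) = 0 := by
  have h1 := eB_eq P h.one h.two c y
  rw [← hy.tau, hy.zB, mul_zero, hy.lin] at h1
  exact h1.symm

theorem InS.of_conics [CharZero N] (h : Om w w') (hc : c ≠ 0) {X Y : N}
    (ha : qa P w w' c l X Y = 0) (hb : qb P w w' c l X Y = 0) :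
    InS P c l (fromZ w w' c l X Y) := by
  have e3 : fromZ w w' c l X Y 3 = c ^ 3 := rfl
  have h3 : (3 : N) ≠ 0 := by norm_num
  refine ⟨?_, ?_, e3, zX_one h hc l X Y⟩
  · have h1 := eA_eq P h.one h.two c (fromZ w w' c l X Y)
    rw [zX_one h hc, zX_two h hc, zX_three h hc, ha] at h1
    rw [e3]
    exact (mul_eq_zero.1 h1).resolve_left h3
  · have h1 := eB_eq P h.one h.two c (fromZ w w' c l X Y)
    rw [zX_one h hc, zX_two h hc, zX_three h hc, hb] at h1
    rw [e3]
    exact (mul_eq_zero.1 h1).resolve_left h3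

theorem InS.quartic (hy : InS P c l y) (h : Om w w') :
    q4 w w' c * zX w w' c y ^ 4 + q3 P w w' c l * zX w w' c y ^ 3 +
      q2 P w w' c l * zX w w' c y ^ 2 + q1 P w w' c l * zX w w' c y + q0 P w w' c l = 0 := by
  have h1 := hy.ca h
  have h2 := hy.cb h
  unfold qa at h1
  unfold qb at h2
  have h3 := r_eq (kA c) (kB P w w' c l) (kB P w' w c l) (kE P c l) (k11 w w' c) (k12 c l)
    (k11 w' w c) (k1 P w w' c l) (k1 P w' w c l) (k0 P c l) (zX w w' c y) (zX w' w c y) h1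
  rw [h2, mul_zero] at h3
  exact h3

theorem kA_ne [CharZero N] (hc : 1 + c ^ 3 ≠ 0) : kA c ≠ 0 := by
  unfold kA
  exact mul_ne_zero (by norm_num) (phi_ne hc)

theorem q4_ne [CharZero N] (h : Om w w') (hc : 1 + c ^ 3 ≠ 0) : q4 w w' c ≠ 0 := by
  unfold q4 r4
  refine mul_ne_zero ?_ (pow_ne_zero 2 (kA_ne hc))
  unfold k11
  exact neg_ne_zero.2 (phi_ne' h hc)

theorem InS.zX_mem [CharZero N] {M : IntermediateField ℂ N} (hM : ∀ u, IsAlgebraic M u → u ∈ M)
    (hy : InS P c l y) (h : Om w w') (hc : 1 + c ^ 3 ≠ 0) (hw : w ∈ M) (hcM : c ∈ M) (hl : l ∈ M) :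
    zX w w' c y ∈ M := by
  have hw' : w' ∈ M := by
    rw [← h.sq]
    exact pow_mem hw 2
  refine mem_of_quartic hM ?_ ?_ ?_ ?_ ?_ (q4_ne h hc) (hy.quartic h)
  · have h1 := map_q4 M.val (⟨w, hw⟩ : M) ⟨w', hw'⟩ ⟨c, hcM⟩
    rw [show q4 w w' c = _ from h1.symm]
    exact Subtype.property _
  · have h1 := map_q3 M.val P (⟨w, hw⟩ : M) ⟨w', hw'⟩ ⟨c, hcM⟩ ⟨l, hl⟩
    rw [show q3 P w w' c l = _ from h1.symm]
    exact Subtype.property _
  · have h1 := map_q2 M.val P (⟨w, hw⟩ : M) ⟨w', hw'⟩ ⟨c, hcM⟩ ⟨l, hl⟩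
    rw [show q2 P w w' c l = _ from h1.symm]
    exact Subtype.property _
  · have h1 := map_q1 M.val P (⟨w, hw⟩ : M) ⟨w', hw'⟩ ⟨c, hcM⟩ ⟨l, hl⟩
    rw [show q1 P w w' c l = _ from h1.symm]
    exact Subtype.property _
  · have h1 := map_q0 M.val P (⟨w, hw⟩ : M) ⟨w', hw'⟩ ⟨c, hcM⟩ ⟨l, hl⟩
    rw [show q0 P w w' c l = _ from h1.symm]
    exact Subtype.property _

theorem InS.mem [CharZero N] {M : IntermediateField ℂ N} (hM : ∀ u, IsAlgebraic M u → u ∈ M)
    (hy : InS P c l y) (h : Om w w') (hc0 : c ≠ 0) (hc : 1 + c ^ 3 ≠ 0) (hw : w ∈ M) (hcM : c ∈ M)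
    (hl : l ∈ M) (j : Fin 4) : y j ∈ M := by
  have hw' : w' ∈ M := by
    rw [← h.sq]
    exact pow_mem hw 2
  have hX := hy.zX_mem hM h hc hw hcM hl
  have hY := hy.zX_mem hM h.symm hc hw' hcM hl
  have h3 : (3 : N) ∈ M := ofNat_mem M 3
  rw [eq_fromZ h hc0 hy.tau, hy.lin]
  fin_cases j
  · exact div_mem (add_mem (add_mem hl (mul_mem hw' hX)) (mul_mem hw hY)) (mul_mem h3 hcM)
  · exact div_mem (add_mem (add_mem hl hX) hY) h3
  · exact div_mem (add_mem (add_mem hl (mul_mem hw hX)) (mul_mem hw' hY))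
      (mul_mem h3 (pow_mem hcM 2))
  · exact pow_mem hcM 3

/-- The points over `(c, l)` form a finite set. -/
theorem finite_inS [CharZero N] (h : Om w w') (hc0 : c ≠ 0) (hc : 1 + c ^ 3 ≠ 0) (l : N) :
    {y | InS P c l y}.Finite := by
  classical
  have key : ∀ {w w' : N}, Om w w' → {X | ∃ y, InS P c l y ∧ zX w w' c y = X}.Finite := by
    intro w w' h
    have h1 : HT (C (q4 w w' c) * X ^ 4 + C (q3 P w w' c l) * X ^ 3 + C (q2 P w w' c l) * X ^ 2 +
        C (q1 P w w' c l) * X + C (q0 P w w' c l)) 4 (q4 w w' c) :=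
      (((((((HT.C _).mul (HT.X.pow 4)).cast (by norm_num)).add
        (((HT.C _).mul (HT.X.pow 3)).up (by norm_num))).add
        (((HT.C _).mul (HT.X.pow 2)).up (by norm_num))).add
        (((HT.C _).mul HT.X).up (by norm_num))).add ((HT.C _).up (by norm_num))).val (by ring)
    refine Set.Finite.subset (Polynomial.finite_setOfPred_isRoot (h1.ne_zero (q4_ne h hc))) ?_
    rintro _ ⟨y, hy, rfl⟩
    have h2 := hy.quartic h
    simp only [Set.mem_ofPred_eq, IsRoot, eval_add, eval_mul, eval_C, eval_pow, eval_X]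
    exact h2
  have h1 := (key h).prod (key h.symm)
  refine Set.Finite.subset (h1.image fun p => fromZ w w' c l p.1 p.2) ?_
  intro y hy
  refine ⟨(zX w w' c y, zX w' w c y), ⟨⟨y, hy, rfl⟩, ⟨y, hy, rfl⟩⟩, ?_⟩
  have h2 := eq_fromZ h hc0 hy.tau
  rw [hy.lin] at h2
  exact h2.symm

end points

section sub

variable {N : Type} [Field N] [Algebra ℂ N] {P : Par} {w w' c l δ : N} {x y : Fin 4 → N}

theorem Om.sub {M : IntermediateField ℂ N} (h : Om w w') (hw : w ∈ M) (hw' : w' ∈ M) :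
    Om (⟨w, hw⟩ : M) ⟨w', hw'⟩ where
  one := Subtype.ext h.one
  two := Subtype.ext h.two

theorem Om.mem {M : IntermediateField ℂ N} (h : Om w w') (hw : w ∈ M) : w' ∈ M := by
  rw [← h.sq]
  exact pow_mem hw 2

theorem top_ne {F : Type} [Field F] [Algebra ℂ F] [CharZero F] {w w' c : F} (h : Om w w') (hc : 1 + c ^ 3 ≠ 0) :
    -(4 * (-(3 * (3 * (1 - w' * c + w * c ^ 2)) * kA c)) ^ 2 *
      (-(3 * (3 * (1 - w' * c + w * c ^ 2)) * (3 * (1 - w * c + w' * c ^ 2)))) ^ 3 *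
      (-(1 - c + c ^ 2) * (3 * (1 - w * c + w' * c ^ 2)) ^ 2)) ≠ 0 := by
  have h1 := phi_ne hc
  have h2 := phi_ne' h hc
  have h3 := phi_ne' h.symm hc
  have h4 := kA_ne hc
  have n3 : (3 : F) ≠ 0 := by norm_num
  have n4 : (4 : F) ≠ 0 := by norm_num
  refine neg_ne_zero.2 (mul_ne_zero (mul_ne_zero (mul_ne_zero n4 (pow_ne_zero 2 (neg_ne_zero.2
    (mul_ne_zero (mul_ne_zero n3 (mul_ne_zero n3 h3)) h4)))) (pow_ne_zero 3 (neg_ne_zero.2
    (mul_ne_zero (mul_ne_zero n3 (mul_ne_zero n3 h3)) (mul_ne_zero n3 h2)))))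
    (mul_ne_zero (neg_ne_zero.2 h1) (pow_ne_zero 2 (mul_ne_zero n3 h2))))

variable {M : IntermediateField ℂ N}

theorem sub_ne (hcM : c ∈ M) (hc : 1 + c ^ 3 ≠ 0) : 1 + (⟨c, hcM⟩ : M) ^ 3 ≠ 0 :=
  fun h => hc (congrArg Subtype.val h)

/-- evaluation at `l` as a homomorphism over `ℂ` -/
noncomputable def evl (M : IntermediateField ℂ N) (l : N) : M[X] →ₐ[ℂ] N :=
  (aeval l : M[X] →ₐ[M] N).restrictScalars ℂ

theorem evl_C (a : M) : evl M l (C a) = a := by
  change aeval l (C a) = _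
  rw [aeval_C]
  rfl

theorem evl_X : evl M l X = l := by
  change aeval l X = _
  rw [aeval_X]

theorem dsc_ne [CharZero N] (hM : ∀ u, IsAlgebraic M u → u ∈ M) (h : Om w w')
    (hc : 1 + c ^ 3 ≠ 0) (hw : w ∈ M) (hcM : c ∈ M) (hl : l ∉ M) : dsc P w w' c l ≠ 0 := by
  intro h0
  haveI : CharZero M := charZero_of_injective_algebraMap (algebraMap ℂ M).injective
  have hw' := h.mem hw
  refine hl (hM _ ((ht_dsc P (⟨w, hw⟩ : M) ⟨w', hw'⟩ ⟨c, hcM⟩).isAlgebraic
    (top_ne (h.sub hw hw') (sub_ne hcM hc)) ?_))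
  change evl M l _ = 0
  rw [map_dsc, evl_C, evl_C, evl_C, evl_X]
  exact h0

theorem bc_ne [CharZero N] (hM : ∀ u, IsAlgebraic M u → u ∈ M) (h : Om w w')
    (hc : 1 + c ^ 3 ≠ 0) (hw : w ∈ M) (hcM : c ∈ M) (hl : l ∉ M) :
    kB P w w' c l * kB P w' w c l - kA c * kE P c l ≠ 0 := by
  intro h0
  haveI : CharZero M := charZero_of_injective_algebraMap (algebraMap ℂ M).injective
  have hw' := h.mem hw
  have hs := h.sub hw hw'
  have n3 : (3 : M) ≠ 0 := by norm_num
  refine hl (hM _ ((ht_bc P (⟨w, hw⟩ : M) ⟨w', hw'⟩ ⟨c, hcM⟩).isAlgebraic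
    (mul_ne_zero (mul_ne_zero n3 (phi_ne' hs.symm (sub_ne hcM hc)))
      (mul_ne_zero n3 (phi_ne' hs (sub_ne hcM hc)))) ?_))
  change evl M l _ = 0
  rw [map_sub, map_mul, map_mul, map_kB, map_kB, map_kA, map_kE, evl_C, evl_C, evl_C, evl_X]
  exact h0

theorem k11_ne (h : Om w w') (hc : 1 + c ^ 3 ≠ 0) : k11 w w' c ≠ 0 := by
  unfold k11
  exact neg_ne_zero.2 (phi_ne' h hc)

/-- a root of the quartic is not the excluded one -/
theorem ac_ne [CharZero N] (hM : ∀ u, IsAlgebraic M u → u ∈ M) (h : Om w w')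
    (hc : 1 + c ^ 3 ≠ 0) (hw : w ∈ M) (hcM : c ∈ M) (hl : l ∉ M) {x : N}
    (hx : q4 w w' c * x ^ 4 + q3 P w w' c l * x ^ 3 + q2 P w w' c l * x ^ 2 +
      q1 P w w' c l * x + q0 P w w' c l = 0) : kA c * x + kB P w' w c l ≠ 0 := by
  intro h0
  have h1 := r_eq' (kA c) (kB P w w' c l) (kB P w' w c l) (kE P c l) (k11 w w' c) (k12 c l)
    (k11 w' w c) (k1 P w w' c l) (k1 P w' w c l) (k0 P c l) x h0
  have h2 : r4 (kA c) (k11 w w' c) * x ^ 4 + r3 (kA c) (kB P w w' c l) (kB P w' w c l)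
      (k11 w w' c) (k12 c l) (k1 P w w' c l) * x ^ 3 + r2 (kA c) (kB P w w' c l) (kB P w' w c l)
      (kE P c l) (k11 w w' c) (k12 c l) (k11 w' w c) (k1 P w w' c l) (k1 P w' w c l)
      (k0 P c l) * x ^ 2 + r1 (kA c) (kB P w w' c l) (kB P w' w c l) (kE P c l) (k12 c l)
      (k11 w' w c) (k1 P w w' c l) (k1 P w' w c l) (k0 P c l) * x +
      r0 (kB P w' w c l) (kE P c l) (k11 w' w c) (k1 P w' w c l) (k0 P c l) = 0 := hx
  rw [h2, mul_zero] at h1
  exact mul_ne_zero (k11_ne h.symm hc) (pow_ne_zero 2 (bc_ne hM h hc hw hcM hl)) h1.symm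

/-- The first coordinate determines the point. -/
theorem InS.ext_X [CharZero N] (hM : ∀ u, IsAlgebraic M u → u ∈ M) (h : Om w w') (hc0 : c ≠ 0)
    (hc : 1 + c ^ 3 ≠ 0) (hw : w ∈ M) (hcM : c ∈ M) (hl : l ∉ M) (hx : InS P c l x)
    (hy : InS P c l y) (hX : zX w w' c x = zX w w' c y) : x = y := by
  have h1 := ac_ne hM h hc hw hcM hl (hx.quartic h)
  have h2 := hx.ca h
  have h3 := hy.ca h
  rw [← hX] at h3
  unfold qa at h2 h3
  have h4 : zX w' w c x = zX w' w c y := by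
    apply mul_left_cancel₀ h1
    linear_combination h2 - h3
  rw [eq_fromZ h hc0 hx.tau, eq_fromZ h hc0 hy.tau, hx.lin, hy.lin, hX, h4]

/-- a root of the quartic gives a point -/
theorem exists_of_root [CharZero N] (hM : ∀ u, IsAlgebraic M u → u ∈ M) (h : Om w w') (hc0 : c ≠ 0)
    (hc : 1 + c ^ 3 ≠ 0) (hw : w ∈ M) (hcM : c ∈ M) (hl : l ∉ M) {x : N}
    (hx : q4 w w' c * x ^ 4 + q3 P w w' c l * x ^ 3 + q2 P w w' c l * x ^ 2 +
      q1 P w w' c l * x + q0 P w w' c l = 0) : ∃ y, InS P c l y ∧ zX w w' c y = x := by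
  have h1 := ac_ne hM h hc hw hcM hl hx
  obtain ⟨z, hz⟩ : ∃ z, z = -(kB P w w' c l * x + kE P c l) / (kA c * x + kB P w' w c l) :=
    ⟨_, rfl⟩
  have h2 : kA c * x * z + kB P w w' c l * x + kB P w' w c l * z + kE P c l = 0 := by
    have h3 : (kA c * x + kB P w' w c l) * z = -(kB P w w' c l * x + kE P c l) := by
      rw [hz]
      field_simp
    linear_combination h3
  have h3 := r_eq (kA c) (kB P w w' c l) (kB P w' w c l) (kE P c l) (k11 w w' c) (k12 c l)
    (k11 w' w c) (k1 P w w' c l) (k1 P w' w c l) (k0 P c l) x z h2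
  have h4 : (kA c * x + kB P w' w c l) ^ 2 * qb P w w' c l x z = 0 := h3.symm.trans hx
  refine ⟨fromZ w w' c l x z, InS.of_conics h hc0 h2
    ((mul_eq_zero.1 h4).resolve_left (pow_ne_zero 2 h1)), zX_two h hc0 l x z⟩

/-- There are four points over `(c, l)`. -/
theorem exists_four [CharZero N] [IsAlgClosed N] (hM : ∀ u, IsAlgebraic M u → u ∈ M) (h : Om w w')
    (hc0 : c ≠ 0) (hc : 1 + c ^ 3 ≠ 0) (hw : w ∈ M) (hcM : c ∈ M) (hl : l ∉ M) :
    ∃ s : Finset N, s.card = 4 ∧ ∀ x ∈ s, ∃ y, InS P c l y ∧ zX w w' c y = x := by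
  classical
  set f : N[X] := C (q4 w w' c) * X ^ 4 + C (q3 P w w' c l) * X ^ 3 + C (q2 P w w' c l) * X ^ 2 +
        C (q1 P w w' c l) * X + C (q0 P w w' c l) with hf
  have h1 : HT f 4 (q4 w w' c) :=
    (((((((HT.C _).mul (HT.X.pow 4)).cast (by norm_num)).add
      (((HT.C _).mul (HT.X.pow 3)).up (by norm_num))).add
      (((HT.C _).mul (HT.X.pow 2)).up (by norm_num))).add
      (((HT.C _).mul HT.X).up (by norm_num))).add ((HT.C _).up (by norm_num))).val (by ring)
  have hne : f ≠ 0 := h1.ne_zero (q4_ne h hc)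
  have hdeg : f.natDegree = 4 := le_antisymm h1.deg
    (le_natDegree_of_ne_zero (by rw [h1.top]; exact q4_ne h hc))
  have hroot : ∀ x, f.eval x = q4 w w' c * x ^ 4 + q3 P w w' c l * x ^ 3 +
      q2 P w w' c l * x ^ 2 + q1 P w w' c l * x + q0 P w w' c l := by
    intro x
    simp only [hf, eval_add, eval_mul, eval_C, eval_pow, eval_X]
  have hroot' : ∀ x, f.derivative.eval x = 4 * q4 w w' c * x ^ 3 + 3 * q3 P w w' c l * x ^ 2 +
      2 * q2 P w w' c l * x + q1 P w w' c l := by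
    intro x
    simp only [hf, derivative_add, derivative_C_mul, derivative_X_pow, derivative_C, derivative_X,
      eval_add, eval_mul, eval_C, eval_pow, eval_X, eval_zero, eval_one, Nat.cast_ofNat]
    norm_num
    ring
  have hnd : f.roots.Nodup := by
    rw [Multiset.nodup_iff_count_le_one]
    intro x
    rw [count_roots]
    by_contra hcon
    rw [not_le, one_lt_rootMultiplicity_iff_isRoot hne] at hcon
    obtain ⟨e1, e2⟩ := hcon
    rw [IsRoot, hroot] at e1
    rw [IsRoot, hroot'] at e2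
    exact dsc_ne hM h hc hw hcM hl (disc4_eq_zero e1 e2)
  refine ⟨f.roots.toFinset, ?_, ?_⟩
  · rw [Multiset.toFinset_card_of_nodup hnd, ← hdeg]
    exact splits_iff_card_roots.1 (IsAlgClosed.splits f)
  · intro x hx
    rw [Multiset.mem_toFinset, mem_roots hne, IsRoot, hroot] at hx
    exact exists_of_root hM h hc0 hc hw hcM hl hx

/-- Three points over `(c, l)`. -/
theorem exists_three_pts [CharZero N] [IsAlgClosed N] (hM : ∀ u, IsAlgebraic M u → u ∈ M)
    (h : Om w w') (hc0 : c ≠ 0) (hc : 1 + c ^ 3 ≠ 0) (hw : w ∈ M) (hcM : c ∈ M) (hl : l ∉ M)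
    (x : Fin 4 → N) :
    ∃ y z, InS P c l y ∧ InS P c l z ∧ x ≠ y ∧ x ≠ z ∧ y ≠ z := by
  classical
  obtain ⟨s, hs, h1⟩ := exists_four (P := P) hM h hc0 hc hw hcM hl
  have h2 : 1 < (s.erase (zX w w' c x)).card := by
    have h3 := Finset.pred_card_le_card_erase (s := s) (a := zX w w' c x)
    omega
  obtain ⟨a, ha, b, hb, hab⟩ := Finset.one_lt_card.1 h2
  rw [Finset.mem_erase] at ha hb
  obtain ⟨y, hy, hya⟩ := h1 a ha.2
  obtain ⟨z, hz, hzb⟩ := h1 b hb.2
  refine ⟨y, z, hy, hz, ?_, ?_, ?_⟩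
  · rintro rfl
    exact ha.1 hya.symm
  · rintro rfl
    exact hb.1 hzb.symm
  · rintro rfl
    exact hab (hya.symm.trans hzb)

end sub

end Vale.Agent.P297.H288
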